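import Vale.Agent.P070ZS.Faith2

/-!
# In the universe of sets, the internal notions are the usual ones
-/

set_option linter.all false

namespace Vale.Agent.P070ZS

open Vale.Agent.P323.Z Vale.Agent.P129Z.S Vale.Agent.P070Z Vale.Agent.P070

universe u

variable {R : Reals ZFSet.{u}} {K : Scalars ZFSet.{u}} {ρ : ℝ → ZFSet.{u}}
  {H G G' : Hilb ZFSet.{u}} {A p q : ZFSet.{u}}
  {L : Type*} [NormedAddCommGroup L] [InnerProductSpace ℂ L] [CompleteSpace L]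
  {e : L → ZFSet.{u}} {B : NonUnitalStarSubalgebra ℂ (L →L[ℂ] L)}
  [hB : IsClosed (B : Set (L →L[ℂ] L))]

theorem enum_alg (h : CodesHilb ρ H e) (hA : CodesAlg e A B) :
    Enum (fun S : B => gph H e S.1) A :=
  ⟨fun _ _ c => Subtype.ext (h.gph_inj c), fun T => (h.alg_iff.1 hA T).trans
    ⟨fun ⟨S, hS, c⟩ => ⟨⟨S, hS⟩, c⟩, fun ⟨S, c⟩ => ⟨S.1, S.2, c⟩⟩⟩

section

variable {M : Type*} [NormedAddCommGroup M] [InnerProductSpace ℂ M] [CompleteSpace M]
  {d : M → ZFSet.{u}}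

theorem import_rep (hR : CodesReal R ρ) (hK : CodesCx K ρ) (h : CodesHilb ρ H e)
    (hA : CodesAlg e A B) (g : CodesHilb ρ G d) (hp : IsRep In R K H A G p) :
    ∃ π : Naimark.Rep B M, ∀ S : B, ap In p (gph H e S.1) = gph G d (π.op S) := by
  have m := (enum_alg h hA).m
  choose P hP using fun S : B => (g.oper_iff hR hK).1 (hp.oper _ (m S))
  have h1 : ∀ (c : ℂ) S, P (c • S) = c • P S := fun c S => g.isSMul.1 (by
    rw [hP, hP]
    exact hp.smul _ _ _ (hK.car.m c) (m S) (m _) (h.isSMul.2 rfl))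
  have h2 : ∀ S T, P (S + T) = P S + P T := fun S T => g.isAdd.1 (by
    rw [hP, hP, hP]
    exact hp.add _ _ _ (m S) (m T) (m _) (h.isAdd.2 rfl))
  refine ⟨{ toFun := P
            map_smul' := h1
            map_zero' := left_eq_add.1 ((congrArg P (add_zero 0)).symm.trans (h2 0 0))
            map_add' := h2
            map_mul' := fun S T => g.isMul.1 ?_
            map_star' := fun S => (g.isAdj hK).1 ?_ }, fun S => (hP S).symm⟩
  · rw [hP, hP, hP]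
    exact hp.mul _ _ _ (m S) (m T) (m _) (h.isMul.2 rfl)
  · rw [hP, hP]
    exact hp.adj _ _ (m S) (m _) ((h.isAdj hK).2 rfl)

theorem export_rep (hR : CodesReal R ρ) (hK : CodesCx K ρ) (h : CodesHilb ρ H e)
    (hA : CodesAlg e A B) (g : CodesHilb ρ G d) (π : Naimark.Rep B M) :
    ∃ p, IsRep In R K H A G p ∧ ∀ S : B, ap In p (gph H e S.1) = gph G d (π.op S) := by
  have a := enum_alg h hA
  obtain ⟨p, hp⟩ := a.exists_gr fun S => gph G d (π.op S)
  have k := hp.ap a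
  let π' : B →⋆ₙₐ[ℂ] (M →L[ℂ] M) := π
  refine ⟨p, ⟨⟨(G.car.prod G.car).powerset, hp.isFunction a fun S =>
    ZFSet.mem_powerset.2 fun z hz => (ZFSet.mem_sep.1 hz).1⟩, a.all.2 fun S => ?_,
    fun S T U hS hT hU h1 => ?_, fun c T U hc hT hU h1 => ?_, fun S T U hS hT hU h1 => ?_,
    fun T U hT hU h1 => ?_⟩, k⟩
  · exact (g.oper_iff hR hK).2 ⟨_, (k S).symm⟩
  · obtain ⟨S, rfl⟩ := a.ex hS
    obtain ⟨T, rfl⟩ := a.ex hT
    obtain ⟨U, rfl⟩ := a.ex hU
    obtain rfl : U = S + T := Subtype.ext (h.isAdd.1 h1)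
    rw [k, k, k]
    exact g.isAdd.2 (map_add π' S T)
  · obtain ⟨c, rfl⟩ := hK.car.ex hc
    obtain ⟨T, rfl⟩ := a.ex hT
    obtain ⟨U, rfl⟩ := a.ex hU
    obtain rfl : U = c • T := Subtype.ext (h.isSMul.1 h1)
    rw [k, k]
    exact g.isSMul.2 (map_smul π' c T)
  · obtain ⟨S, rfl⟩ := a.ex hS
    obtain ⟨T, rfl⟩ := a.ex hT
    obtain ⟨U, rfl⟩ := a.ex hU
    obtain rfl : U = S * T := Subtype.ext (h.isMul.1 h1)
    rw [k, k, k]
    exact g.isMul.2 (map_mul π' S T)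
  · obtain ⟨T, rfl⟩ := a.ex hT
    obtain ⟨U, rfl⟩ := a.ex hU
    obtain rfl : U = star T := Subtype.ext ((h.isAdj hK).1 h1)
    rw [k, k]
    exact (g.isAdj hK).2 (map_star π' T)

theorem irred_iff (hR : CodesReal R ρ) (hK : CodesCx K ρ) (h : CodesHilb ρ H e)
    (hA : CodesAlg e A B) (g : CodesHilb ρ G d) {π : Naimark.Rep B M}
    (k : ∀ S : B, ap In p (gph H e S.1) = gph G d (π.op S)) :
    IsIrred In R K A G p ↔ Naimark.IsIrred π := by
  have a := enum_alg h hA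
  refine and_congr ⟨?_, ?_⟩ ⟨fun h1 V hV h2 => ?_, fun h1 V hV h2 h3 => ?_⟩
  · rintro ⟨T, x, hT, hx, h1⟩
    obtain ⟨T, rfl⟩ := a.ex hT
    obtain ⟨x, rfl⟩ := g.car.ex hx
    rw [k, g.ap, g.zero] at h1
    exact ⟨T, x, fun c => h1 (congrArg d c)⟩
  · rintro ⟨T, x, h1⟩
    refine ⟨_, _, a.m T, g.car.m x, ?_⟩
    rw [k, g.ap, g.zero]
    exact fun c => h1 (g.car.inj c)
  · obtain ⟨W, hW⟩ := g.car.exists_im (V : Set M)
    have m : ∀ x, In (d x) W ↔ x ∈ V := fun x => (hW _).trans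
      ⟨fun ⟨y, hy, c⟩ => g.car.inj c ▸ hy, fun hx => ⟨x, hx, rfl⟩⟩
    refine (h1 W ⟨fun z hz => ?_, g.zero ▸ (m 0).2 V.zero_mem, fun x y hx hy => ?_,
      fun c x hc hx => ?_⟩ (g.car.all.2 fun x h3 => ?_) fun T x hT hx => ?_).imp
      (fun h3 => ?_) fun h3 => ?_
    · obtain ⟨y, -, rfl⟩ := (hW _).1 hz
      exact g.car.m y
    · obtain ⟨x, hx', rfl⟩ := (hW _).1 hx
      obtain ⟨y, hy', rfl⟩ := (hW _).1 hy
      rw [g.add]
      exact (m _).2 (V.add_mem hx' hy')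
    · obtain ⟨c, rfl⟩ := hK.car.ex hc
      obtain ⟨x, hx', rfl⟩ := (hW _).1 hx
      rw [g.smul]
      exact (m _).2 (V.smul_mem c hx')
    · refine (m x).2 (hV.closure_subset (Metric.mem_closure_iff.2 fun r hr => ?_))
      obtain ⟨y, hy, h4⟩ := hR.allPos.1 h3 r hr
      obtain ⟨y, hy', rfl⟩ := (hW _).1 hy
      exact ⟨y, hy', (dist_eq_norm x y).trans_lt ((g.close hR _ _ _).1 h4)⟩
    · obtain ⟨T, rfl⟩ := a.ex hT
      obtain ⟨x, hx', rfl⟩ := (hW _).1 hx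
      rw [k, g.ap]
      exact (m _).2 (h2 T x hx')
    · exact eq_bot_iff.2 fun x hx => g.car.inj ((h3 _ ((m x).2 hx)).trans g.zero)
    · exact eq_top_iff.2 fun x _ => (m x).1 (h3 _ (g.car.m x))
  · let W : Submodule ℂ M :=
      { carrier := {x | In (d x) V}
        add_mem' := fun {x y} hx hy => show In (d (x + y)) V from g.add x y ▸ hV.2.2.1 _ _ hx hy
        zero_mem' := show In (d 0) V from g.zero ▸ hV.2.1
        smul_mem' := fun c x hx =>
          show In (d (c • x)) V from g.smul c x ▸ hV.2.2.2 _ _ (hK.car.m c) hx }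
    refine (h1 W (closure_subset_iff_isClosed.1 fun x hx => ?_) fun T x hx => ?_).imp
      (fun h4 x hx => ?_) fun h4 => g.car.all.2 fun x => ?_
    · refine h2 _ (g.car.m x) (hR.allPos.2 fun r hr => ?_)
      obtain ⟨y, hy, h4⟩ := Metric.mem_closure_iff.1 hx r hr
      exact ⟨_, hy, (g.close hR _ _ _).2 ((dist_eq_norm x y).symm.trans_lt h4)⟩
    · have := h3 _ _ (a.m T) hx
      rwa [k, g.ap] at this
    · obtain ⟨x, rfl⟩ := g.car.ex (hV.1 x hx)
      rw [g.zero, (Submodule.eq_bot_iff W).1 h4 x hx]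
    · exact (Submodule.eq_top_iff'.1 h4 x : x ∈ W)

theorem compacts_iff (hR : CodesReal R ρ) (hK : CodesCx K ρ) (h : CodesHilb ρ H e)
    (hA : CodesAlg e A B) (g : CodesHilb ρ G d) {π : Naimark.Rep B M}
    (k : ∀ S : B, ap In p (gph H e S.1) = gph G d (π.op S)) :
    ((∀ S T, In S A → In T A → ap In p S = ap In p T → S = T) ∧
      ∀ U, IsOper In R K G U → (IsCompactOp In R G U ↔ ∃ T, In T A ∧ ap In p T = U)) ↔
      Naimark.IsFaithful π ∧ Naimark.RangeIsCompacts π := by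
  have a := enum_alg h hA
  have r : ∀ U, (∃ T, In T A ∧ ap In p T = gph G d U) ↔ ∃ T, π.op T = U := fun U =>
    ⟨fun ⟨T, hT, c⟩ => (a.ex hT).elim fun S c' => ⟨S, g.gph_inj (by rw [← k, c', c])⟩,
      fun ⟨T, c⟩ => ⟨_, a.m T, c ▸ k T⟩⟩
  refine and_congr ⟨fun h1 S T c => a.inj (h1 _ _ (a.m S) (a.m T) (by rw [k, k, c])),
    fun h1 S T hS hT c => ?_⟩ ⟨fun h1 U => ?_, fun h1 U hU => ?_⟩
  · obtain ⟨S, rfl⟩ := a.ex hS
    obtain ⟨T, rfl⟩ := a.ex hT
    rw [k, k] at c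
    rw [h1 (g.gph_inj c)]
  · rw [← g.compact_iff hR, h1 _ ((g.oper_iff hR hK).2 ⟨U, rfl⟩), r]
  · obtain ⟨U, rfl⟩ := (g.oper_iff hR hK).1 hU
    rw [g.compact_iff hR, h1, r]

end

theorem equiv_iff {M M' : Type u} [NormedAddCommGroup M] [InnerProductSpace ℂ M]
    [CompleteSpace M] [NormedAddCommGroup M'] [InnerProductSpace ℂ M'] [CompleteSpace M']
    {d : M → ZFSet.{u}} {d' : M' → ZFSet.{u}} (hK : CodesCx K ρ) (h : CodesHilb ρ H e)
    (hA : CodesAlg e A B) (g : CodesHilb ρ G d) (g' : CodesHilb ρ G' d') {π : Naimark.Rep B M}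
    {σ : Naimark.Rep B M'} (k : ∀ S : B, ap In p (gph H e S.1) = gph G d (π.op S))
    (k' : ∀ S : B, ap In q (gph H e S.1) = gph G' d' (σ.op S)) :
    UnitEquiv In K A G p G' q ↔ Naimark.UnitEquiv π σ := by
  have a := enum_alg h hA
  constructor
  · rintro ⟨W, ⟨h1, h2, h3⟩, h4⟩
    obtain ⟨f, hf⟩ := exists_fn h1.1 g.car g'.car
    obtain ⟨h5, h6⟩ := (linear_iff hK g g' hf).1 h1
    let F : M →ₗ[ℂ] M' := ⟨⟨f, h5⟩, h6⟩
    refine ⟨LinearIsometryEquiv.ofSurjective (F.isometryOfInner fun x y => ?_) fun y => ?_,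
      fun S x => ?_⟩
    · have := h3 _ _ (g.car.m x) (g.car.m y)
      rwa [hf.ap g.car, hf.ap g.car, g.inner, g'.inner, hK.car.eq_iff] at this
    · obtain ⟨x, hx, h7⟩ := h2.2 _ (g'.car.m y)
      obtain ⟨x, rfl⟩ := g.car.ex hx
      have := (fn_mem h1.1 (pairMem_iff.1 h7)).2.2
      rw [hf.ap g.car, g'.car.eq_iff] at this
      exact ⟨x, this⟩
    · have := h4 _ _ (a.m S) (g.car.m x)
      rwa [k, k', g.ap, hf.ap g.car, hf.ap g.car, g'.ap, g'.car.eq_iff] at this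
  · rintro ⟨W, hW⟩
    obtain ⟨T, hT⟩ := g.car.exists_gr fun x => d' (W x)
    have h1 := (linear_iff hK g g' hT).2 ⟨map_add W, map_smul W⟩
    refine ⟨T, ⟨h1, ⟨h1.1, g'.car.all.2 fun y => ⟨_, g.car.m (W.symm y), pairMem_iff.2
      ((hT _).2 ⟨W.symm y, by simp⟩)⟩⟩, fun x y hx hy => ?_⟩, fun S x hS hx => ?_⟩
    · obtain ⟨x, rfl⟩ := g.car.ex hx
      obtain ⟨y, rfl⟩ := g.car.ex hy
      rw [hT.ap g.car, hT.ap g.car, g.inner, g'.inner, W.inner_map_map]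
    · obtain ⟨S, rfl⟩ := a.ex hS
      obtain ⟨x, rfl⟩ := g.car.ex hx
      rw [k, k', g.ap, hT.ap g.car, hT.ap g.car, g'.ap, hW]

theorem propN_iff (hR : CodesReal R ρ) (hK : CodesCx K ρ) (h : CodesHilb ρ H e)
    (hA : CodesAlg e A B) : PropN In R K H A ↔ Naimark.PropertyN.{_, u} B := by
  have a := enum_alg h hA
  refine and_congr ⟨?_, fun h1 => ?_⟩ ⟨fun h1 M M' _ _ _ _ _ _ π σ h2 h3 => ?_,
    fun h1 G p G' q g g' hp hq h2 h3 => ?_⟩
  · rintro ⟨T, x, hT, hx, h1⟩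
    obtain ⟨T, rfl⟩ := a.ex hT
    obtain ⟨x, rfl⟩ := h.car.ex hx
    refine ⟨T, 0, fun c => h1 ?_⟩
    rw [h.ap, h.zero, c]
    rfl
  · obtain ⟨T, hT⟩ := exists_ne (0 : B)
    by_contra h2
    refine hT (Subtype.ext (ContinuousLinearMap.ext fun x => h.car.inj ?_))
    by_contra h3
    exact h2 ⟨_, _, a.m T, h.car.m x, by rwa [h.ap, h.zero]⟩
  · obtain ⟨G, d, g1, g⟩ := export_hilb (L := M) hR hK
    obtain ⟨G', d', g1', g'⟩ := export_hilb (L := M') hR hK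
    obtain ⟨p, hp, k⟩ := export_rep hR hK h hA g π
    obtain ⟨q, hq, k'⟩ := export_rep hR hK h hA g' σ
    exact (equiv_iff hK h hA g g' k k').1 (h1 G p G' q g1 g1' hp hq
      ((irred_iff hR hK h hA g k).2 h2) ((irred_iff hR hK h hA g' k').2 h3))
  · obtain ⟨M, _, _, _, d, g⟩ := import_hilb hR hK g
    obtain ⟨M', _, _, _, d', g'⟩ := import_hilb hR hK g'
    obtain ⟨π, k⟩ := import_rep hR hK h hA g hp
    obtain ⟨σ, k'⟩ := import_rep hR hK h hA g' hq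
    exact (equiv_iff hK h hA g g' k k').2 (h1 M M' π σ
      ((irred_iff hR hK h hA g k).1 h2) ((irred_iff hR hK h hA g' k').1 h3))

theorem isCompacts_iff (hR : CodesReal R ρ) (hK : CodesCx K ρ) (h : CodesHilb ρ H e)
    (hA : CodesAlg e A B) : IsCompacts In R K H A ↔ Naimark.IsCompacts.{_, u} B := by
  constructor
  · rintro ⟨G, p, g, hp, h1⟩
    obtain ⟨M, _, _, _, d, g⟩ := import_hilb hR hK g
    obtain ⟨π, k⟩ := import_rep hR hK h hA g hp
    exact ⟨M, _, _, _, π, (compacts_iff hR hK h hA g k).1 h1⟩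
  · rintro ⟨M, _, _, _, π, h1⟩
    obtain ⟨G, d, g1, g⟩ := export_hilb (L := M) hR hK
    obtain ⟨p, hp, k⟩ := export_rep hR hK h hA g π
    exact ⟨G, p, g1, hp, (compacts_iff hR hK h hA g k).2 h1⟩

omit hB

/-- Every C*-algebra of the universe of sets codes a closed `*`-subalgebra of some `B(L)`. -/
theorem faith_import (hR : CodesReal R ρ) (hK : IsComplexScalars In R K)
    (hH : IsHilbert In R K H) (hA : IsCStar In R K H A) :
    ∃ (L : Type u) (_ : NormedAddCommGroup L) (_ : InnerProductSpace ℂ L) (_ : CompleteSpace L)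
      (e : L → ZFSet.{u}) (B : NonUnitalStarSubalgebra ℂ (L →L[ℂ] L)),
      IsClosed (B : Set (L →L[ℂ] L)) ∧ CodesHilb ρ H e ∧ CodesAlg e A B := by
  obtain ⟨L, _, _, _, e, h⟩ := import_hilb hR (codesCx hR hK) hH
  obtain ⟨B, h1, h2⟩ := h.import_alg hR (codesCx hR hK) hA
  exact ⟨L, _, _, _, e, B, h1, h, h2⟩

/-- Every closed `*`-subalgebra of some `B(L)` has a code. -/
theorem faith_export (hR : CodesReal R ρ) (hK : IsComplexScalars In R K) (L : Type u)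
    [NormedAddCommGroup L] [InnerProductSpace ℂ L] [CompleteSpace L]
    (B : NonUnitalStarSubalgebra ℂ (L →L[ℂ] L)) (hB : IsClosed (B : Set (L →L[ℂ] L))) :
    ∃ (H : Hilb ZFSet.{u}) (A : ZFSet.{u}) (e : L → ZFSet.{u}),
      IsHilbert In R K H ∧ IsCStar In R K H A ∧ CodesHilb ρ H e ∧ CodesAlg e A B := by
  obtain ⟨H, e, h1, h⟩ := export_hilb (L := L) hR (codesCx hR hK)
  obtain ⟨A, h2, h3⟩ := h.export_alg hR (codesCx hR hK) B hB
  exact ⟨H, A, e, h1, h2, h, h3⟩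

/-- The two properties of a code are the properties of the coded algebra. -/
theorem faith_transfer (hR : CodesReal R ρ) (hK : IsComplexScalars In R K) {L : Type u}
    [NormedAddCommGroup L] [InnerProductSpace ℂ L] [CompleteSpace L] {e : L → ZFSet.{u}}
    (B : NonUnitalStarSubalgebra ℂ (L →L[ℂ] L)) [IsClosed (B : Set (L →L[ℂ] L))]
    (h : CodesHilb ρ H e) (hA : CodesAlg e A B) :
    (PropN In R K H A ↔ Naimark.PropertyN.{u, u} B) ∧
      (IsCompacts In R K H A ↔ Naimark.IsCompacts.{u, u} B) :=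
  ⟨propN_iff hR (codesCx hR hK) h hA, isCompacts_iff hR (codesCx hR hK) h hA⟩

/-- In the universe of sets, `Counter` is the existence of a counterexample. -/
theorem faith_counter : Counter In.{u} ↔
    ∃ (L : Type u) (_ : NormedAddCommGroup L) (_ : InnerProductSpace ℂ L) (_ : CompleteSpace L)
      (B : NonUnitalStarSubalgebra ℂ (L →L[ℂ] L)) (_ : IsClosed (B : Set (L →L[ℂ] L))),
      Naimark.PropertyN.{u, u} B ∧ ¬ Naimark.IsCompacts.{u, u} B := by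
  constructor
  · rintro ⟨⟨R, K, hR, hK⟩, h⟩
    obtain ⟨H, A, h1, h2, h3, h4⟩ := h R K hR hK
    obtain ⟨ρ, hρ⟩ := faith_real hR
    obtain ⟨L, _, _, _, e, B, hB, h5, h6⟩ := faith_import hρ hK h1 h2
    obtain ⟨h7, h8⟩ := faith_transfer hρ hK B h5 h6
    exact ⟨L, _, _, _, B, hB, h7.1 h3, fun c => h4 (h8.2 c)⟩
  · rintro ⟨L, _, _, _, B, hB, h1, h2⟩
    refine ⟨exists_scalars, fun R K hR hK => ?_⟩
    obtain ⟨ρ, hρ⟩ := faith_real hR
    obtain ⟨H, A, e, h3, h4, h5, h6⟩ := faith_export hρ hK L B hB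
    obtain ⟨h7, h8⟩ := faith_transfer hρ hK B h5 h6
    exact ⟨H, A, h3, h4, h7.2 h1, fun c => h2 (h8.1 c)⟩

end Vale.Agent.P070ZS
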