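import Vale.Agent.P323.Z.Fml

/-!
# Formal proofs, consistency, and the axioms of ZFC

`Fml n`: formulas of set theory in the variables `x₀, …, xₙ₋₁`; `all φ` binds the last variable
`la`, and `up i` is the variable `i` below a quantifier.
-/

namespace Vale.Agent.P070ZS.Ax

open Vale.Agent.P323.Z Vale.Agent.P323.Z.Fml

/-- `φ`, read as a formula in one more variable -/
def lift {n : ℕ} (φ : Fml n) : Fml (n + 1) := φ.rename Fin.castSucc

/-- `φ` with the variable `xᵢ` in place of its last variable -/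
def inst {n : ℕ} (φ : Fml (n + 1)) (i : Fin n) : Fml n := φ.rename (Fin.snoc id i)

/-- Natural deduction for classical first-order logic with equality. `Prf T Γ φ`: the formula `φ`
has a formal proof from the sentences in `T` and the hypotheses in `Γ`. -/
inductive Prf (T : Set (Fml 0)) : ∀ {n : ℕ}, List (Fml n) → Fml n → Prop
  | ax {n : ℕ} {Γ : List (Fml n)} {ψ : Fml 0} : ψ ∈ T → Prf T Γ (ψ.rename Fin.elim0)
  | hyp {n : ℕ} {Γ : List (Fml n)} {φ : Fml n} : φ ∈ Γ → Prf T Γ φ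
  | impI {n : ℕ} {Γ : List (Fml n)} {φ ψ : Fml n} : Prf T (φ :: Γ) ψ → Prf T Γ (imp φ ψ)
  | impE {n : ℕ} {Γ : List (Fml n)} {φ ψ : Fml n} : Prf T Γ (imp φ ψ) → Prf T Γ φ → Prf T Γ ψ
  | raa {n : ℕ} {Γ : List (Fml n)} {φ : Fml n} : Prf T (neg φ :: Γ) bot → Prf T Γ φ
  | allI {n : ℕ} {Γ : List (Fml n)} {φ : Fml (n + 1)} : Prf T (Γ.map lift) φ → Prf T Γ (all φ)
  | allE {n : ℕ} {Γ : List (Fml n)} {φ : Fml (n + 1)} (i : Fin n) :
      Prf T Γ (all φ) → Prf T Γ (inst φ i)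
  | refl {n : ℕ} {Γ : List (Fml n)} (i : Fin n) : Prf T Γ (eq i i)
  | subst {n : ℕ} {Γ : List (Fml n)} (φ : Fml (n + 1)) (i j : Fin n) :
      Prf T Γ (eq i j) → Prf T Γ (inst φ i) → Prf T Γ (inst φ j)
  | nonempty {n : ℕ} {Γ : List (Fml n)} : Prf T (Γ.map lift) bot → Prf T Γ bot

/-- `T` is consistent. -/
def Con (T : Set (Fml 0)) : Prop := ¬ Prf T ([] : List (Fml 0)) bot

/-- universal closure -/
def clo : ∀ {n : ℕ}, Fml n → Fml 0
  | 0, φ => φ
  | _ + 1, φ => clo (all φ)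

/-- the last variable -/
def la {n : ℕ} : Fin (n + 1) := Fin.last n

/-- an old variable below one new quantifier -/
def up {n : ℕ} (i : Fin n) : Fin (n + 1) := Fin.castSucc i

/-- `∀ x y, (∀ z, z ∈ x ↔ z ∈ y) → x = y` -/
def extF : Fml 0 :=
  all (all (imp (all (iff (mem la (up (up la))) (mem la (up la)))) (eq (up la) la)))

/-- `∀ x, (∃ y, y ∈ x) → ∃ y, y ∈ x ∧ ∀ z, z ∈ x → z ∉ y` -/
def fndF : Fml 0 :=
  all (imp (ex (mem la (up la))) (ex (and (mem la (up la))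
    (all (imp (mem la (up (up la))) (neg (mem la (up la))))))))

/-- `∀ x y, ∃ p, ∀ z, z ∈ p ↔ z = x ∨ z = y` -/
def pairF : Fml 0 :=
  all (all (ex (all (iff (mem la (up la)) (or (eq la (up (up (up la)))) (eq la (up (up la))))))))

/-- `∀ x, ∃ u, ∀ z, z ∈ u ↔ ∃ y, y ∈ x ∧ z ∈ y` -/
def unionF : Fml 0 :=
  all (ex (all (iff (mem la (up la)) (ex (and (mem la (up (up (up la)))) (mem (up la) la))))))

/-- `∀ x, ∃ p, ∀ z, z ∈ p ↔ ∀ w, w ∈ z → w ∈ x` -/
def powF : Fml 0 :=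
  all (ex (all (iff (mem la (up la)) (all (imp (mem la (up la)) (mem la (up (up (up la)))))))))

/-- `∃ w, (∃ e, e ∈ w ∧ ∀ z, z ∉ e) ∧ ∀ x, x ∈ w → ∃ s, s ∈ w ∧ ∀ z, z ∈ s ↔ z ∈ x ∨ z = x` -/
def infF : Fml 0 :=
  ex (and (ex (and (mem la (up la)) (all (neg (mem la (up la))))))
    (all (imp (mem la (up la)) (ex (and (mem la (up (up la)))
      (all (iff (mem la (up la)) (or (mem la (up (up la))) (eq la (up (up la)))))))))))

/-- `p = {x, y}` -/
def upairF {n : ℕ} (p x y : Fin n) : Fml n :=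
  all (iff (mem la (up p)) (or (eq la (up x)) (eq la (up y))))

/-- `(x, y) ∈ f`: `∃ p s t, p ∈ f ∧ s = {x, x} ∧ t = {x, y} ∧ p = {s, t}` -/
def pairMemF {n : ℕ} (x y f : Fin n) : Fml n :=
  ex (and (mem la (up f)) (ex (and (upairF la (up (up x)) (up (up x)))
    (ex (and (upairF la (up (up (up x))) (up (up (up y)))) (upairF (up (up la)) (up la) la))))))

/-- Choice: `∀ F, (∀ A, A ∈ F → ∃ x, x ∈ A) →
∃ c, ∀ A, A ∈ F → ∃ x, x ∈ A ∧ ∀ y, (A, y) ∈ c ↔ y = x` -/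
def acF : Fml 0 :=
  all (imp (all (imp (mem la (up la)) (ex (mem la (up la)))))
    (ex (all (imp (mem la (up (up la))) (ex (and (mem la (up la))
      (all (iff (pairMemF (up (up la)) la (up (up (up la)))) (eq la (up la))))))))))

/-- Separation for `φ(v, x)`: `∀ a, ∃ b, ∀ x, x ∈ b ↔ x ∈ a ∧ φ(v, x)` -/
def sepF {n : ℕ} (φ : Fml (n + 1)) : Fml n :=
  all (ex (all (iff (mem la (up la)) (and (mem la (up (up la)))
    (φ.rename (Fin.snoc (fun i => up (up (up i))) la))))))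

/-- Replacement for `φ(v, x, y)`: `∀ a, (∀ x, x ∈ a → ∃ y, φ(v, x, y) ∧ ∀ z, φ(v, x, z) → z = y) →
∃ b, ∀ y, y ∈ b ↔ ∃ x, x ∈ a ∧ φ(v, x, y)` -/
def repF {n : ℕ} (φ : Fml (n + 2)) : Fml n :=
  all (imp
    (all (imp (mem la (up la)) (ex (and
      (φ.rename (Fin.snoc (Fin.snoc (fun i => up (up (up i))) (up la) : Fin (n + 1) → _) la))
      (all (imp (φ.rename (Fin.snoc (Fin.snoc (fun i => up (up (up (up i)))) (up (up la)) :
        Fin (n + 1) → _) la)) (eq la (up la))))))))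
    (ex (all (iff (mem la (up la)) (ex (and (mem la (up (up (up la))))
      (φ.rename (Fin.snoc (Fin.snoc (fun i => up (up (up (up i)))) la :
        Fin (n + 1) → _) (up la)))))))))

/-- The axioms of ZFC. -/
def ZFC : Set (Fml 0) :=
  {extF, fndF, pairF, unionF, powF, infF, acF} ∪
    {ψ | ∃ n, ∃ φ : Fml (n + 1), ψ = clo (sepF φ)} ∪ {ψ | ∃ n, ∃ φ : Fml (n + 2), ψ = clo (repF φ)}

end Vale.Agent.P070ZS.Ax
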