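import Vale.Agent.P070ZS.Ax
import Vale.Agent.P070Z.Syn

/-!
# Soundness, completeness and the models of the axioms
-/

set_option linter.all false

namespace Vale.Agent.P070ZS.Ax

open Vale.Agent.P323.Z Vale.Agent.P129Z.S Vale.Agent.P070Z

universe v

theorem prf_iff {T : Set (Fml 0)} {n : ℕ} {Γ : List (Fml n)} {φ : Fml n} :
    Prf T Γ φ ↔ P129B.Syn.Prf T Γ φ := by
  constructor
  · intro h
    induction h with
    | ax h => exact .ax h
    | hyp h => exact .hyp h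
    | impI _ a => exact .impI a
    | impE _ _ a b => exact .impE a b
    | raa _ a => exact .raa a
    | allI _ a => exact .allI a
    | allE i _ a => exact .allE i a
    | refl i => exact .refl i
    | subst φ i j _ _ a b => exact .subst φ i j a b
    | nonempty _ a => exact .nonempty a
  · intro h
    induction h with
    | ax h => exact .ax h
    | hyp h => exact .hyp h
    | impI _ a => exact .impI a
    | impE _ _ a b => exact .impE a b
    | raa _ a => exact .raa a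
    | allI _ a => exact .allI a
    | allE i _ a => exact .allE i a
    | refl i => exact .refl i
    | subst φ i j _ _ a b => exact .subst φ i j a b
    | nonempty _ a => exact .nonempty a

theorem clo_eq : ∀ {n : ℕ} (φ : Fml n), clo φ = P129B.Syn.clo φ
  | 0, _ => rfl
  | _ + 1, φ => clo_eq (Fml.all φ)

/-- Soundness and completeness. -/
theorem prf_iff_models (T : Set (Fml 0)) (φ : Fml 0) : Prf T [] φ ↔
    ∀ (M : Type v) (E : M → M → Prop), Nonempty M → (∀ ψ ∈ T, ψ.Sat E Fin.elim0) →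
      φ.Sat E Fin.elim0 := prf_iff.trans (P070Z.prf_iff_models T φ)

variable {M : Type v} {E : M → M → Prop}

theorem sat_pairMemF {n : ℕ} (x y f : Fin n) (v : Fin n → M) :
    (pairMemF x y f).Sat E v ↔ PairMem E (v x) (v y) (v f) := by
  simp only [pairMemF, upairF, la, up, Fml.sat_ex, Fml.sat_and, Fml.sat_all, Fml.sat_iff,
    Fml.sat_or, Fml.sat_eq, Fml.sat_mem, Fin.snoc_castSucc, Fin.snoc_last, PairMem, IsOPair,
    IsUPair]
  exact exists_congr fun p => ⟨fun ⟨a, s, b, t, c, d⟩ => ⟨⟨s, t, b, c, d⟩, a⟩,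
    fun ⟨⟨s, t, b, c, d⟩, a⟩ => ⟨a, s, b, t, c, d⟩⟩

theorem sat_acF : acF.Sat E Fin.elim0 ↔ ∀ F, (∀ A, E A F → ∃ x, E x A) →
    ∃ c, ∀ A, E A F → ∃ x, E x A ∧ ∀ y, PairMem E A y c ↔ y = x := by
  simp only [acF, la, up, Fml.sat_ex, Fml.sat_and, Fml.sat_all, Fml.sat_iff, Fml.sat_imp,
    Fml.sat_eq, Fml.sat_mem, sat_pairMemF, Fin.snoc_castSucc, Fin.snoc_last]

theorem opair_inj {p a b c d : M} (h : IsOPair E p a b) (k : IsOPair E p c d) :
    a = c ∧ b = d := by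
  obtain ⟨s, t, h1, h2, h3⟩ := h
  obtain ⟨s', t', k1, k2, k3⟩ := k
  have e : a = c := by
    rcases (k3 s).1 ((h3 s).2 (Or.inl rfl)) with rfl | rfl
    · exact ((h1 c).1 ((k1 c).2 (Or.inl rfl))).elim Eq.symm Eq.symm
    · exact ((h1 c).1 ((k2 c).2 (Or.inl rfl))).elim Eq.symm Eq.symm
  have e1 : b = c ∨ b = d := by
    rcases (k3 t).1 ((h3 t).2 (Or.inr rfl)) with rfl | rfl
    · exact Or.inl (((k1 b).1 ((h2 b).2 (Or.inr rfl))).elim id id)
    · exact (k2 b).1 ((h2 b).2 (Or.inr rfl))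
  have e2 : d = a ∨ d = b := by
    rcases (h3 t').1 ((k3 t').2 (Or.inr rfl)) with rfl | rfl
    · exact Or.inl (((h1 d).1 ((k2 d).2 (Or.inr rfl))).elim id id)
    · exact (h2 d).1 ((k2 d).2 (Or.inr rfl))
  refine ⟨e, e1.elim (fun x => e2.elim (fun y => ?_) Eq.symm) id⟩
  rw [x, y, e]

open Fml in
theorem ac_iff (h : IsZFModel E) : acF.Sat E Fin.elim0 ↔ AC E := by
  rw [sat_acF]
  refine forall_congr' fun F => forall_congr' fun _ => ⟨?_, ?_⟩
  · rintro ⟨c, hc⟩
    obtain ⟨U, hU⟩ := h.union F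
    obtain ⟨d, hd⟩ : ∃ d, ∀ p, E p d ↔ E p c ∧ ∃ A, E A F ∧ ∃ x, E x A ∧ IsOPair E p A x := by
      have := h.separation 1 (P129Z.toBF (ex (and (mem Fml.la (Fml.up (Fml.up Fml.la)))
        (ex (and (mem Fml.la (Fml.up Fml.la))
          (opairF (Fml.up (Fml.up Fml.la)) (Fml.up Fml.la) Fml.la))))))
        (Fin.snoc Fin.elim0 F : Fin (0 + 1) → M) c
      simpa only [P129Z.sat_toBF, sat_ex, sat_and, sat_mem, sat_opairF, Fin.snoc_castSucc,
        Fin.snoc_last] using this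
    refine ⟨d, U, ⟨fun p hp => ?_, fun A hA => ?_⟩, ?_⟩
    · obtain ⟨-, A, h1, x, h2, h3⟩ := (hd p).1 hp
      exact ⟨A, x, h1, (hU x).2 ⟨A, h1, h2⟩, h3⟩
    · obtain ⟨x, h1, h2⟩ := hc A hA
      obtain ⟨p, h3, h4⟩ := (h2 x).2 rfl
      exact ⟨x, ⟨p, h3, (hd p).2 ⟨h4, A, hA, x, h1, h3⟩⟩, fun y ⟨q, h5, h6⟩ =>
        (h2 y).1 ⟨q, h5, ((hd q).1 h6).1⟩⟩
    · rintro A x ⟨p, h1, h2⟩
      obtain ⟨-, B, -, y, h3, h4⟩ := (hd p).1 h2
      obtain ⟨rfl, rfl⟩ := opair_inj h1 h4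
      exact h3
  · rintro ⟨c, U, h1, h2⟩
    refine ⟨c, fun A hA => ?_⟩
    obtain ⟨x, h3, h4⟩ := h1.value A hA
    exact ⟨x, h2 A x h3, fun y => ⟨h4 y, fun e => e ▸ h3⟩⟩

/-- The models of ZFC are the structures in which the axioms are true. -/
theorem models_iff : (∀ ψ ∈ ZFC, ψ.Sat E Fin.elim0) ↔ IsZFCModel E := by
  constructor
  · intro h
    have k : IsZFModel E := by
      refine ⟨?_, ?_, ?_, ?_, ?_, ?_, fun n φ v a => ?_, fun n φ v a => ?_⟩
      · simpa only [extF, la, up, Fml.sat_all, Fml.sat_iff, Fml.sat_imp, Fml.sat_eq,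
          Fml.sat_mem, Fin.snoc_castSucc, Fin.snoc_last] using h extF (by simp [ZFC])
      · simpa only [fndF, la, up, Fml.sat_all, Fml.sat_ex, Fml.sat_and, Fml.sat_imp, Fml.sat_neg,
          Fml.sat_mem, Fin.snoc_castSucc, Fin.snoc_last] using h fndF (by simp [ZFC])
      · simpa only [pairF, la, up, Fml.sat_all, Fml.sat_ex, Fml.sat_iff, Fml.sat_or, Fml.sat_eq,
          Fml.sat_mem, Fin.snoc_castSucc, Fin.snoc_last] using h pairF (by simp [ZFC])
      · simpa only [unionF, la, up, Fml.sat_all, Fml.sat_ex, Fml.sat_iff, Fml.sat_and,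
          Fml.sat_mem, Fin.snoc_castSucc, Fin.snoc_last] using h unionF (by simp [ZFC])
      · simpa only [powF, la, up, Fml.sat_all, Fml.sat_ex, Fml.sat_iff, Fml.sat_imp,
          Fml.sat_mem, Fin.snoc_castSucc, Fin.snoc_last] using h powF (by simp [ZFC])
      · simpa only [infF, la, up, Fml.sat_all, Fml.sat_ex, Fml.sat_iff, Fml.sat_and, Fml.sat_or,
          Fml.sat_imp, Fml.sat_neg, Fml.sat_eq, Fml.sat_mem, Fin.snoc_castSucc,
          Fin.snoc_last] using h infF (by simp [ZFC])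
      · have := h _ (Or.inl (Or.inr ⟨n, Fml.ofBF φ, rfl⟩))
        rw [clo_eq] at this
        simpa only [Fml.sat_ofBF] using (P129B.Syn.sat_sepF E _ v).1
          ((P129B.Syn.sat_clo E _).1 this v) a
      · have := h _ (Or.inr ⟨n, Fml.ofBF φ, rfl⟩)
        rw [clo_eq] at this
        simpa only [Fml.sat_ofBF] using (P129B.Syn.sat_repF E _ v).1
          ((P129B.Syn.sat_clo E _).1 this v) a
    exact ⟨k, (ac_iff k).1 (h acF (by simp [ZFC]))⟩
  · intro h
    have k := (P129B.Syn.isZFCModel_iff E).1 h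
    rintro ψ ((hψ | ⟨n, φ, rfl⟩) | ⟨n, φ, rfl⟩)
    · rcases hψ with rfl | rfl | rfl | rfl | rfl | rfl | rfl
      exacts [k P129B.Syn.extF (by simp [P129B.Syn.ZFC]), k P129B.Syn.fndF (by simp [P129B.Syn.ZFC]),
        k P129B.Syn.pairF (by simp [P129B.Syn.ZFC]), k P129B.Syn.unionF (by simp [P129B.Syn.ZFC]),
        k P129B.Syn.powF (by simp [P129B.Syn.ZFC]), k P129B.Syn.infF (by simp [P129B.Syn.ZFC]),
        (ac_iff h.1).2 h.2]
    · rw [clo_eq]
      exact k _ (Or.inl (Or.inr ⟨n, φ, rfl⟩))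
    · rw [clo_eq]
      exact k _ (Or.inr ⟨n, φ, rfl⟩)

theorem con_of_model {T : Set (Fml 0)} [Nonempty M] (h : ∀ ψ ∈ T, ψ.Sat E Fin.elim0) : Con T :=
  fun k => P070Z.con_of_model h (prf_iff.1 k)

/-- If `Counter` holds in all models of ZFC, then ZFC proves a sentence which expresses it, and the
negation of this sentence is not consistent with ZFC. -/
theorem prf_of_models (H : ∀ (M : Type v) (E : M → M → Prop), IsZFCModel E → Counter E) :
    ∃ φ : Fml 0, (∀ (M : Type v) (E : M → M → Prop), φ.Sat E Fin.elim0 ↔ Counter E) ∧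
      Prf ZFC [] φ ∧ ¬ Con (ZFC ∪ {φ.neg}) := by
  obtain ⟨φ, h⟩ := P070ZS.exists_fml_counter.{v}
  have p : Prf ZFC [] φ := (prf_iff_models.{v} _ _).2 fun M E _ k =>
    (h M E).2 (H M E (models_iff.1 k))
  exact ⟨φ, h, p, fun k => k ((prf_iff_models.{0} _ _).2 fun M E h1 h2 =>
    h2 _ (Or.inr rfl) ((prf_iff_models.{0} _ _).1 p M E h1 fun ψ hψ => h2 ψ (Or.inl hψ)))⟩

end Vale.Agent.P070ZS.Ax
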