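import Vale.Agent.P070Z.Stmt
import Vale.Agent.P070.Statement
import Mathlib.SetTheory.ZFC.Basic

/-!
# Sets that code the real numbers, a Hilbert space and an algebra of operators
-/

namespace Vale.Agent.P070ZS

open Vale.Agent.P129Z.S Vale.Agent.P070Z

universe u

/-- membership of sets -/
def In (x y : ZFSet.{u}) : Prop := x ∈ (y : Set ZFSet.{u})

/-- `e` is a bijection from `α` onto the elements of the set `A`. -/
structure Enum {α : Type*} (e : α → ZFSet.{u}) (A : ZFSet.{u}) : Prop where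
  inj : Function.Injective e
  mem : ∀ z, In z A ↔ ∃ a, e a = z

/-- `ρ` is an isomorphism of ordered fields from `ℝ` onto `R`. -/
structure CodesReal (R : Reals ZFSet.{u}) (ρ : ℝ → ZFSet.{u}) : Prop where
  car : Enum ρ R.car
  add : ∀ a b, ap2 In R.add (ρ a) (ρ b) = ρ (a + b)
  mul : ∀ a b, ap2 In R.mul (ρ a) (ρ b) = ρ (a * b)
  zero : R.zero = ρ 0
  one : R.one = ρ 1
  lt : ∀ a b, R.Lt In (ρ a) (ρ b) ↔ a < b

/-- the complex number `c` as a pair of codes of real numbers -/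
def cx (ρ : ℝ → ZFSet.{u}) (c : ℂ) : ZFSet.{u} := ZFSet.pair (ρ c.re) (ρ c.im)

variable {L : Type*} [NormedAddCommGroup L] [InnerProductSpace ℂ L]

/-- `e` is an isomorphism of inner product spaces from `L` onto `H`. -/
structure CodesHilb (ρ : ℝ → ZFSet.{u}) (H : Hilb ZFSet.{u}) (e : L → ZFSet.{u}) : Prop where
  car : Enum e H.car
  add : ∀ x y, ap2 In H.add (e x) (e y) = e (x + y)
  zero : H.zero = e 0
  smul : ∀ (c : ℂ) x, ap2 In H.smul (cx ρ c) (e x) = e (c • x)
  norm : ∀ x, ap In H.norm (e x) = ρ ‖x‖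
  inner : ∀ x y, ap2 In H.inner (e x) (e y) = cx ρ (Inner.inner ℂ x y)

/-- The elements of `A` are the graphs of the operators in `B`. -/
def CodesAlg (e : L → ZFSet.{u}) (A : ZFSet.{u}) (B : Set (L →L[ℂ] L)) : Prop :=
  ∀ T, In T A ↔ ∃ S ∈ B, ∀ p, In p T ↔ ∃ x, ZFSet.pair (e x) (e (S x)) = p

end Vale.Agent.P070ZS
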