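import Vale.Agent.P070ZS.Codes

/-!
# Sets that code a C*-algebra of operators
-/

namespace Vale.Agent.P070ZS

open Vale.Agent.P070Z Vale.Agent.P070.Naimark

universe u

/-- `(H, A)` codes the C*-algebra `B` acting on `L` by the injective representation `π`: `H` codes
`L`, and the elements of `A` are the graphs of the operators `π(b)`. -/
structure Codes (ρ : ℝ → ZFSet.{u}) (H : Hilb ZFSet.{u}) (A : ZFSet.{u}) {B L : Type u}
    [NonUnitalCStarAlgebra B] [NormedAddCommGroup L] [InnerProductSpace ℂ L] [CompleteSpace L]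
    (π : Rep B L) (e : L → ZFSet.{u}) : Prop where
  faithful : IsFaithful π
  hilb : CodesHilb ρ H e
  alg : ∀ T, In T A ↔ ∃ b, ∀ p, In p T ↔ ∃ x, ZFSet.pair (e x) (e (π.op b x)) = p

end Vale.Agent.P070ZS
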