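import Vale.Agent.P129Z.FO
import Vale.Agent.P070Z.Stmt

/-!
# The statement `Counter` is expressed by a first-order sentence
-/

set_option linter.all false

namespace Vale.Agent.P070ZS

open Vale.Agent.P323.Z Vale.Agent.P129Z.S Vale.Agent.P129Z.FO Vale.Agent.P070Z

universe v

theorem ud_banach {r0 r1 r2 r3 r4 r5 k0 k1 k2 k3 k4 x0 x1 x2 x3 x4 : Tm.{v}} (a0 : UT r0)
    (a1 : UT r1) (a2 : UT r2) (a3 : UT r3) (a4 : UT r4) (a5 : UT r5) (b0 : UT k0) (b1 : UT k1)
    (b2 : UT k2) (b3 : UT k3) (b4 : UT k4) (c0 : UT x0) (c1 : UT x1) (c2 : UT x2) (c3 : UT x3)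
    (c4 : UT x4) : UD fun M E w => IsBanach E
      ⟨r0 M E w, r1 M E w, r2 M E w, r3 M E w, r4 M E w, r5 M E w⟩
      ⟨k0 M E w, k1 M E w, k2 M E w, k3 M E w, k4 M E w⟩
      ⟨x0 M E w, x1 M E w, x2 M E w, x3 M E w, x4 M E w⟩ :=
  ud_isBanach.subst (fun n => match n with
    | 0 => r0 | 1 => r1 | 2 => r2 | 3 => r3 | 4 => r4 | 5 => r5 | 6 => k0 | 7 => k1 | 8 => k2
    | 9 => k3 | 10 => k4 | 11 => x0 | 12 => x1 | 13 => x2 | 14 => x3 | _ => x4) fun n => by
    rcases n with _ | _ | _ | _ | _ | _ | _ | _ | _ | _ | _ | _ | _ | _ | _ | n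
    exacts [a0, a1, a2, a3, a4, a5, b0, b1, b2, b3, b4, c0, c1, c2, c3, c4]

section

variable {M : Type*} {E : M → M → Prop} {R : Reals M} {K : Scalars M} {H L : Hilb M} {A π : M}

theorem isHilbert_iff : IsHilbert E R K H ↔ IsBanach E R K H.toSpace ∧
    IsOp2 E H.inner H.car H.car K.car ∧
    (∀ x y z, E x H.car → E y H.car → E z H.car →
      ap2 E H.inner x (ap2 E H.add y z) = ap2 E K.add (ap2 E H.inner x y) (ap2 E H.inner x z)) ∧
    (∀ c x y, E c K.car → E x H.car → E y H.car →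
      ap2 E H.inner x (ap2 E H.smul c y) = ap2 E K.mul c (ap2 E H.inner x y)) ∧
    (∀ x y a b b', E x H.car → E y H.car → E a R.car → E b R.car → E b' R.car →
      ap2 E R.add b b' = R.zero → ap2 E H.inner x y = opair E a b →
        ap2 E H.inner y x = opair E a b') ∧
    ∀ x, E x H.car →
      ap2 E H.inner x x = opair E (ap2 E R.mul (ap E H.norm x) (ap E H.norm x)) R.zero :=
  ⟨fun h => ⟨h.1, h.2, h.3, h.4, h.5, h.6⟩, fun ⟨a, b, c, d, e, f⟩ => ⟨a, b, c, d, e, f⟩⟩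

theorem isCStar_iff : IsCStar E R K H A ↔ (∀ T, E T A → IsOper E R K H T) ∧
    (∃ T, E T A ∧ ∀ x, E x H.car → ap E T x = H.zero) ∧
    (∀ S T, E S A → E T A → ∃ U, E U A ∧ IsAdd E H S T U) ∧
    (∀ c T, E c K.car → E T A → ∃ U, E U A ∧ IsSMul E H c T U) ∧
    (∀ S T, E S A → E T A → ∃ U, E U A ∧ IsMul E H S T U) ∧
    (∀ T, E T A → ∃ U, E U A ∧ IsAdj E H T U) ∧
    ∀ T, IsOper E R K H T → (∀ ε, R.Pos E ε → ∃ S, E S A ∧
      ∀ x, InBall E R H x → Close E R H.toSpace ε (ap E T x) (ap E S x)) → E T A :=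
  ⟨fun h => ⟨h.1, h.2, h.3, h.4, h.5, h.6, h.7⟩,
    fun ⟨a, b, c, d, e, f, g⟩ => ⟨a, b, c, d, e, f, g⟩⟩

theorem isRep_iff : IsRep E R K H A L π ↔ (∃ B, IsFunction E π A B) ∧
    (∀ T, E T A → IsOper E R K L (ap E π T)) ∧
    (∀ S T U, E S A → E T A → E U A → IsAdd E H S T U →
      IsAdd E L (ap E π S) (ap E π T) (ap E π U)) ∧
    (∀ c T U, E c K.car → E T A → E U A → IsSMul E H c T U →
      IsSMul E L c (ap E π T) (ap E π U)) ∧
    (∀ S T U, E S A → E T A → E U A → IsMul E H S T U →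
      IsMul E L (ap E π S) (ap E π T) (ap E π U)) ∧
    ∀ T U, E T A → E U A → IsAdj E H T U → IsAdj E L (ap E π T) (ap E π U) :=
  ⟨fun h => ⟨h.1, h.2, h.3, h.4, h.5, h.6⟩, fun ⟨a, b, c, d, e, f⟩ => ⟨a, b, c, d, e, f⟩⟩

theorem forall_hilb {P : Hilb M → Prop} :
    (∀ H, P H) ↔ ∀ a b c d e f, P ⟨⟨a, b, c, d, e⟩, f⟩ :=
  ⟨fun h _ _ _ _ _ _ => h _, fun h H => h H.car H.add H.zero H.smul H.norm H.inner⟩

theorem exists_hilb {P : Hilb M → Prop} :
    (∃ H, P H) ↔ ∃ a b c d e f, P ⟨⟨a, b, c, d, e⟩, f⟩ :=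
  ⟨fun ⟨H, h⟩ => ⟨H.car, H.add, H.zero, H.smul, H.norm, H.inner, h⟩,
    fun ⟨_, _, _, _, _, _, h⟩ => ⟨_, h⟩⟩

end

/-- the Hilbert space read off from the environment -/
abbrev rH {M : Type v} (w : ℕ → M) : Hilb M := ⟨rX w, w 16⟩

theorem ud_hilbert : UD.{v} fun _ E w => IsHilbert E (rR w) (rK w) (rH w) := by
  simp only [isHilbert_iff, IsOp2]
  repeat' with_reducible first
    | exact UT.var _ | apply UT.ap2 | apply UT.ap | apply UT.opair | apply UD.mem | apply UD.eq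
    | apply ud_banach | apply UD.isProd | apply UD.isFunction | apply UD.ex | apply UD.all
    | apply UD.and | apply UD.imp

theorem ud_cstar : UD.{v} fun _ E w => IsCStar E (rR w) (rK w) (rH w) (w 17) := by
  simp only [isCStar_iff, IsOper, IsLinear, IsAdd, IsSMul, IsMul, IsAdj, InBall, Close, Reals.Pos,
    Reals.Le, Reals.Lt]
  repeat' with_reducible first
    | exact UT.var _ | apply UT.ap2 | apply UT.ap | apply UD.mem | apply UD.eq | apply UD.pairMem
    | apply UD.isFunction | apply UD.ex | apply UD.all | apply UD.and | apply UD.imp | apply UD.or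

theorem ud_propN : UD.{v} fun _ E w => PropN E (rR w) (rK w) (rH w) (w 17) := by
  simp only [PropN, forall_hilb, isHilbert_iff, isRep_iff, IsIrred, UnitEquiv, IsUnitary,
    IsSurjection, IsSubspace, IsClosedIn, P129Z.S.Sub, IsOp2, IsOper, IsLinear, IsAdd, IsSMul,
    IsMul, IsAdj, Close, Reals.Pos, Reals.Le, Reals.Lt]
  repeat' with_reducible first
    | exact UT.var _ | apply UT.ap2 | apply UT.ap | apply UT.opair | apply UD.mem | apply UD.eq
    | apply UD.pairMem | apply ud_banach | apply UD.isProd | apply UD.isFunction | apply UD.ex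
    | apply UD.all | apply UD.and | apply UD.imp | exact UD.bot | apply UD.or

theorem ud_compacts : UD.{v} fun _ E w => IsCompacts E (rR w) (rK w) (rH w) (w 17) := by
  simp only [IsCompacts, exists_hilb, isHilbert_iff, isRep_iff, IsCompactOp, InBall, P129Z.S.Sub,
    IsOp2, IsOper, IsLinear, IsAdd, IsSMul, IsMul, IsAdj, Close, Reals.Pos, Reals.Le, Reals.Lt]
  repeat' with_reducible first
    | exact UT.var _ | apply UT.ap2 | apply UT.ap | apply UT.opair | apply UD.mem | apply UD.eq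
    | apply UD.pairMem | apply ud_banach | apply UD.isProd | apply UD.isFunction
    | apply UD.isFinite | apply UD.ex | apply UD.all | apply UD.and | apply UD.imp | apply UD.iff
    | apply UD.or

theorem ud_body : UD.{v} fun _ E w => ∃ (H : Hilb _) (A : _), IsHilbert E (rR w) (rK w) H ∧
    IsCStar E (rR w) (rK w) H A ∧ PropN E (rR w) (rK w) H A ∧ ¬ IsCompacts E (rR w) (rK w) H A := by
  have h := (ud_hilbert.and (ud_cstar.and (ud_propN.and ud_compacts.not))).rename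
    fun n => if n ≤ 10 then n + 7 else 17 - n
  simp only [exists_hilb]
  exact UD.ex (UD.ex (UD.ex (UD.ex (UD.ex (UD.ex (UD.ex h))))))

theorem ud_counter : UD.{v} fun _ E _ => Counter E := by
  have h1 := (ud_isReals.and ud_isComplexScalars).not
  have h2 := ud_isReals.imp (ud_isComplexScalars.imp ud_body)
  refine (h1.all'.all'.all'.all'.all'.all'.all'.all'.all'.all'.all'.not.and
    h2.all'.all'.all'.all'.all'.all'.all'.all'.all'.all'.all').congr fun M E w => and_congr ?_ ?_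
  · refine ⟨fun h => by_contra fun c => h fun _ _ _ _ _ _ _ _ _ _ _ k => c ⟨_, _, k⟩, ?_⟩
    rintro ⟨R, K, k⟩ h
    exact h K.abs K.one K.mul K.add K.car R.lt R.one R.zero R.mul R.add R.car k
  · exact ⟨fun h R K => h K.abs K.one K.mul K.add K.car R.lt R.one R.zero R.mul R.add R.car,
      fun h _ _ _ _ _ _ _ _ _ _ _ => h _ _⟩

/-- `Counter` is expressed by a sentence of the language of set theory. -/
theorem exists_fml_counter : ∃ φ : Fml 0, ∀ (M : Type v) (E : M → M → Prop),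
    φ.Sat E Fin.elim0 ↔ Counter E := by
  obtain ⟨n, φ, σ, h⟩ := ud_counter.exists_fml
  refine ⟨Fml.ex (φ.rename fun _ => Fin.last 0), fun M E => ?_⟩
  rw [Fml.sat_ex]
  have h3 : ∀ x : M, (φ.rename fun _ => Fin.last 0).Sat E (Fin.snoc Fin.elim0 x) ↔ Counter E :=
    fun x => by
      rw [Fml.sat_rename, h M E fun _ => x]
      exact iff_of_eq (congrArg _ (funext fun i => Fin.snoc_last _ _))
  exact ⟨fun ⟨x, k⟩ => (h3 x).1 k, fun k => let ⟨R, _⟩ := k.1; ⟨R.car, (h3 _).2 k⟩⟩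

end Vale.Agent.P070ZS
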