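import Vale.Agent.P070ZS.Codes
import Vale.Agent.P129BL.ErdF
import Vale.Agent.P070Z37.Wrap

/-!
# Graphs of functions as sets; the real and complex numbers of the universe of sets
-/

set_option linter.all false

namespace Vale.Agent.P070ZS

open Vale.Agent.P323.Z Vale.Agent.P129Z.S Vale.Agent.P070Z

universe u

theorem isOPair_iff {p x y : ZFSet.{u}} : IsOPair In p x y ↔ p = ZFSet.pair x y :=
  P129B.C1.isOPair_iff

theorem pairMem_iff {x y f : ZFSet.{u}} : PairMem In x y f ↔ In (ZFSet.pair x y) f :=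
  P129B.C1.pairMem_iff

theorem opair_eq (x y : ZFSet.{u}) : opair In x y = ZFSet.pair x y := by
  have h : ∃! p, IsOPair In p x y := ⟨_, isOPair_iff.2 rfl, fun _ h => isOPair_iff.1 h⟩
  rw [opair, dif_pos h]
  exact isOPair_iff.1 h.choose_spec.1

theorem ap_eq {f x y : ZFSet.{u}} (h : In (ZFSet.pair x y) f)
    (hu : ∀ z, In (ZFSet.pair x z) f → z = y) : ap In f x = y := by
  have h1 : ∃! y, PairMem In x y f := ⟨y, pairMem_iff.2 h, fun z hz => hu z (pairMem_iff.1 hz)⟩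
  rw [ap, dif_pos h1]
  exact hu _ (pairMem_iff.1 h1.choose_spec.1)

theorem fn_pair {f A B x : ZFSet.{u}} (h : IsFunction In f A B) (hx : In x A) :
    In (ZFSet.pair x (ap In f x)) f := by
  have h1 := h.value x hx
  rw [ap, dif_pos h1]
  exact pairMem_iff.1 h1.choose_spec.1

theorem fn_mem {f A B x y : ZFSet.{u}} (h : IsFunction In f A B) (hp : In (ZFSet.pair x y) f) :
    In x A ∧ In y B ∧ ap In f x = y := by
  obtain ⟨_, _, h1, h2, h3⟩ := h.pairs _ hp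
  obtain ⟨rfl, rfl⟩ := ZFSet.pair_inj.1 (isOPair_iff.1 h3)
  exact ⟨h1, h2, (h.value x h1).unique (pairMem_iff.2 (fn_pair h h1)) (pairMem_iff.2 hp)⟩

theorem ap_mem {f A B x : ZFSet.{u}} (h : IsFunction In f A B) (hx : In x A) :
    In (ap In f x) B := (fn_mem h (fn_pair h hx)).2.1

theorem ap2_mem {f A B C x y : ZFSet.{u}} (h : IsOp2 In f A B C) (hx : In x A) (hy : In y B) :
    In (ap2 In f x y) C := by
  obtain ⟨P, h1, h2⟩ := h
  exact ap_mem h2 ((h1 _).2 ⟨x, y, hx, hy, isOPair_iff.2 (opair_eq x y)⟩)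

section

variable {α β γ : Type*} {a : α → ZFSet.{u}} {b : β → ZFSet.{u}} {A B C : ZFSet.{u}}

theorem Enum.m (h : Enum a A) (x : α) : In (a x) A := (h.mem _).2 ⟨x, rfl⟩

theorem Enum.ex (h : Enum a A) {z : ZFSet.{u}} (hz : In z A) : ∃ x, a x = z := (h.mem _).1 hz

theorem Enum.all (h : Enum a A) {P : ZFSet.{u} → Prop} : (∀ z, In z A → P z) ↔ ∀ x, P (a x) :=
  ⟨fun H x => H _ (h.m x), fun H z hz => by
    obtain ⟨x, rfl⟩ := h.ex hz
    exact H x⟩

theorem Enum.small (h : Enum a A) : Small.{u} α :=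
  small_of_injective (f := fun x => (⟨a x, h.m x⟩ : A)) fun _ _ e =>
    h.inj (congrArg Subtype.val e)

theorem Enum.eq_iff (h : Enum a A) {x y : α} : a x = a y ↔ x = y := h.inj.eq_iff

theorem enum_range [Small.{u} α] (h : Function.Injective a) : Enum a (ZFSet.range a) :=
  ⟨h, fun _ => ZFSet.mem_range⟩

theorem enum_shrink (A : ZFSet.{u}) :
    Enum (fun x : Shrink.{u} A => ((equivShrink A).symm x).1) A :=
  ⟨fun _ _ e => (equivShrink A).symm.injective (Subtype.ext e), fun z =>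
    ⟨fun hz => ⟨equivShrink A ⟨z, hz⟩, by simp⟩, fun ⟨x, hx⟩ => hx ▸ ((equivShrink A).symm x).2⟩⟩

theorem Enum.prod (ha : Enum a A) (hb : Enum b B) :
    Enum (fun p : α × β => ZFSet.pair (a p.1) (b p.2)) (A.prod B) := by
  refine ⟨fun p q e => ?_, fun z => ZFSet.mem_prod.trans ⟨?_, ?_⟩⟩
  · obtain ⟨h1, h2⟩ := ZFSet.pair_inj.1 e
    exact Prod.ext (ha.inj h1) (hb.inj h2)
  · rintro ⟨x, hx, y, hy, rfl⟩
    obtain ⟨x, rfl⟩ := ha.ex hx
    obtain ⟨y, rfl⟩ := hb.ex hy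
    exact ⟨(x, y), rfl⟩
  · rintro ⟨p, rfl⟩
    exact ⟨_, ha.m _, _, hb.m _, rfl⟩

theorem isProd_prod (A B : ZFSet.{u}) : IsProd In (A.prod B) A B := fun p =>
  ZFSet.mem_prod.trans ⟨fun ⟨x, hx, y, hy, e⟩ => ⟨x, y, hx, hy, isOPair_iff.2 e⟩,
    fun ⟨x, y, hx, hy, e⟩ => ⟨x, hx, y, hy, isOPair_iff.1 e⟩⟩

/-- the image of a set of indices -/
theorem Enum.exists_im (h : Enum a A) (s : Set α) :
    ∃ S : ZFSet.{u}, ∀ z, In z S ↔ ∃ x ∈ s, a x = z :=
  ⟨A.sep fun z => ∃ x ∈ s, a x = z, fun z => ZFSet.mem_sep.trans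
    (and_iff_right_of_imp fun ⟨x, _, e⟩ => e ▸ h.m x)⟩

/-- `T` is the set of the pairs `(a x, c x)`. -/
def IsGr (a c : α → ZFSet.{u}) (T : ZFSet.{u}) : Prop :=
  ∀ p, In p T ↔ ∃ x, ZFSet.pair (a x) (c x) = p

variable {c d : α → ZFSet.{u}} {T U : ZFSet.{u}}

theorem Enum.exists_gr (h : Enum a A) (c : α → ZFSet.{u}) : ∃ T, IsGr a c T :=
  haveI := h.small
  ⟨ZFSet.range fun x => ZFSet.pair (a x) (c x), fun _ => ZFSet.mem_range⟩

theorem IsGr.ap (h : IsGr a c T) (ha : Enum a A) (x : α) : ap In T (a x) = c x := by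
  refine ap_eq ((h _).2 ⟨x, rfl⟩) fun z hz => ?_
  obtain ⟨y, hy⟩ := (h _).1 hz
  obtain ⟨h1, rfl⟩ := ZFSet.pair_inj.1 hy
  rw [ha.inj h1]

theorem IsGr.isFunction (h : IsGr a c T) (ha : Enum a A) (hc : ∀ x, In (c x) B) :
    IsFunction In T A B := by
  refine ⟨fun p hp => ?_, ha.all.2 fun x => ⟨c x, pairMem_iff.2 ((h _).2 ⟨x, rfl⟩), fun z hz => ?_⟩⟩
  · obtain ⟨x, rfl⟩ := (h _).1 hp
    exact ⟨_, _, ha.m x, hc x, isOPair_iff.2 rfl⟩
  · obtain ⟨y, hy⟩ := (h _).1 (pairMem_iff.1 hz)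
    obtain ⟨h1, rfl⟩ := ZFSet.pair_inj.1 hy
    rw [ha.inj h1]

theorem IsGr.unique (h : IsGr a c T) (h' : IsGr a c U) : T = U :=
  ZFSet.ext fun p => (h p).trans (h' p).symm

theorem isGr_of_fn (h : IsFunction In T A B) (ha : Enum a A) :
    IsGr a (fun x => ap In T (a x)) T := by
  refine fun p => ⟨fun hp => ?_, fun ⟨x, e⟩ => e ▸ fn_pair h (ha.m x)⟩
  obtain ⟨x, y, h1, -, h3⟩ := h.pairs _ hp
  obtain rfl := isOPair_iff.1 h3
  obtain ⟨x, rfl⟩ := ha.ex h1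
  exact ⟨x, congrArg _ (fn_mem h hp).2.2⟩

theorem exists_fn (h : IsFunction In T A B) (ha : Enum a A) (hb : Enum b B) :
    ∃ f : α → β, IsGr a (fun x => b (f x)) T := by
  choose f hf using fun x => hb.ex (ap_mem h (ha.m x))
  exact ⟨f, by simpa only [hf] using isGr_of_fn h ha⟩

theorem exists_op2 (ha : Enum a A) (hb : Enum b B) (g : α → β → ZFSet.{u})
    (hg : ∀ x y, In (g x y) C) :
    ∃ T, IsOp2 In T A B C ∧ ∀ x y, ap2 In T (a x) (b y) = g x y := by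
  obtain ⟨T, hT⟩ := (ha.prod hb).exists_gr fun p => g p.1 p.2
  exact ⟨T, ⟨_, isProd_prod A B, hT.isFunction (ha.prod hb) fun p => hg _ _⟩, fun x y => by
    rw [ap2, opair_eq]
    exact hT.ap (ha.prod hb) (x, y)⟩

end

theorem isFinite_iff {F : ZFSet.{u}} : IsFinite In F ↔ Finite F := P129BL.isFinite_iff

/-- the natural numbers as sets -/
noncomputable def nat (n : ℕ) : ZFSet.{u} := Ordinal.toZFSet (n : Ordinal.{u})

theorem nat_lt {m n : ℕ} : In (nat.{u} m) (nat n) ↔ m < n :=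
  Ordinal.toZFSet_mem_toZFSet_iff.trans Nat.cast_lt

theorem enum_nat {w : ZFSet.{u}} (h : IsOmega In w) : Enum nat w := by
  have h0 : IsOmega In (Ordinal.omega0.{u}.toZFSet) := P129B.C1.isOmega_omega0
  obtain rfl : w = Ordinal.omega0.toZFSet :=
    ZFSet.ext fun z => ⟨h.2 _ h0.1 z, h0.2 _ h.1 z⟩
  refine ⟨fun m n e => Nat.cast_injective (Ordinal.toZFSet_injective e), fun z =>
    Ordinal.mem_toZFSet_iff.trans ⟨?_, ?_⟩⟩
  · rintro ⟨a, ha, rfl⟩
    obtain ⟨n, rfl⟩ := Ordinal.lt_omega0.1 ha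
    exact ⟨n, rfl⟩
  · rintro ⟨n, rfl⟩
    exact ⟨n, Ordinal.natCast_lt_omega0 n, rfl⟩

theorem zf_in : IsZFModel In.{u} where
  extensionality _ _ h := ZFSet.ext h
  foundation x hx := by
    obtain ⟨y, hy, hmin⟩ := ZFSet.mem_wf.has_min {y | y ∈ x} hx
    exact ⟨y, hy, hmin⟩
  pairing x y := ⟨{x, y}, fun _ => ZFSet.mem_pair⟩
  union x := ⟨ZFSet.sUnion x, fun _ => ZFSet.mem_sUnion⟩
  powerSet x := ⟨ZFSet.powerset x, fun _ => ZFSet.mem_powerset⟩
  infinity := ⟨ZFSet.omega, ⟨∅, ZFSet.omega_zero, ZFSet.notMem_empty⟩, fun x hx =>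
    ⟨insert x x, ZFSet.omega_succ hx, fun z => ZFSet.mem_insert_iff.trans or_comm⟩⟩
  separation _ _ _ a := ⟨a.sep _, fun _ => ZFSet.mem_sep⟩
  replacement n φ v a h := by
    choose f hf hf' using h
    refine ⟨ZFSet.range fun x : a => f x.1 x.2, fun y => ZFSet.mem_range.trans ?_⟩
    exact ⟨fun ⟨x, hx⟩ => ⟨x.1, x.2, hx ▸ hf x.1 x.2⟩,
      fun ⟨x, hx, hy⟩ => ⟨⟨x, hx⟩, (hf' x hx y hy).symm⟩⟩

theorem ac_in : AC In.{u} := by
  intro F h
  have hF := enum_shrink F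
  choose c hc using fun x => h _ (hF.m x)
  obtain ⟨T, hT⟩ := hF.exists_gr c
  refine ⟨T, ZFSet.sUnion F, hT.isFunction hF fun x => ZFSet.mem_sUnion.2 ⟨_, hF.m x, hc x⟩,
    fun A x hx => ?_⟩
  obtain ⟨y, hy⟩ := (hT _).1 (pairMem_iff.1 hx)
  obtain ⟨rfl, rfl⟩ := ZFSet.pair_inj.1 hy
  exact hc y

/-- The universe of sets is a model of ZFC. -/
theorem zfc_in : IsZFCModel In.{u} := ⟨zf_in, ac_in⟩

/-- the universe of sets as a model -/
@[reducible] def zm : P129B.ZM ZFSet.{u} := ⟨In, zf_in, ac_in⟩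

theorem exists_scalars : ∃ R K, IsReals In.{u} R ∧ IsComplexScalars In R K :=
  @P070Z37.exists_scalars _ zm

open P129BP in
/-- A complete ordered field of the universe of sets is a copy of `ℝ`. -/
theorem faith_real {R : Reals ZFSet.{u}} (h : IsReals In R) : ∃ ρ, CodesReal R ρ := by
  letI := zm.{u}
  have lub : ∀ s : Set (RT h), s.Nonempty → BddAbove s → ∃ x, IsLUB s x := fun s hs hb => by
    have e : {x : RT h | In x.1 (R.car.sep fun z => ∃ y ∈ s, y.1 = z)} = s :=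
      Set.ext fun x => ZFSet.mem_sep.trans
        ⟨fun ⟨_, y, h1, h2⟩ => (Subtype.ext h2 : y = x) ▸ h1, fun hx => ⟨x.2, x, hx, rfl⟩⟩
    have := RT.lub (h := h) (A := R.car.sep fun z => ∃ y ∈ s, y.1 = z)
      (fun z hz => (ZFSet.mem_sep.1 hz).1)
      (hs.elim fun x hx => ⟨x.1, ZFSet.mem_sep.2 ⟨x.2, x, hx, rfl⟩⟩) (e.symm ▸ hb)
    exact e ▸ this
  haveI : Archimedean (RT h) := by
    refine archimedean_iff_nat_lt.2 fun b => ?_
    by_contra! hb
    obtain ⟨s, hs⟩ := lub (Set.range fun n : ℕ => (n : RT h)) ⟨_, 0, rfl⟩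
      ⟨b, by rintro _ ⟨n, rfl⟩; exact hb n⟩
    have h4 : s ≤ s - 1 := hs.2 (by
      rintro _ ⟨n, rfl⟩
      have := hs.1 ⟨n + 1, rfl⟩
      simp only [Nat.cast_add, Nat.cast_one] at this
      exact le_sub_iff_add_le.2 this)
    exact absurd h4 (not_le.2 (sub_one_lt s))
  obtain ⟨ι⟩ : Nonempty (RT h →+*o ℝ) := inferInstance
  have hι : Function.Injective ι := ι.toRingHom.injective
  have hm : StrictMono ι := ι.monotone'.strictMono_of_injective hι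
  have hs : Function.Surjective ι := fun r => by
    obtain ⟨q, hq⟩ := exists_rat_lt r
    obtain ⟨q', hq'⟩ := exists_rat_gt r
    obtain ⟨s, h1⟩ := lub {x | ι x < r} ⟨q, by simpa using hq⟩
      ⟨q', fun x hx => hm.le_iff_le.1 (by simpa using (hx.trans hq').le)⟩
    refine ⟨s, le_antisymm (not_lt.1 fun h2 => ?_) (not_lt.1 fun h2 => ?_)⟩
    · obtain ⟨t, h3, h4⟩ := exists_rat_btwn h2
      have := hm.monotone (h1.2 (show (t : RT h) ∈ upperBounds _ from fun x hx =>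
        hm.le_iff_le.1 (by simpa using (lt_trans hx h3).le)))
      rw [map_ratCast] at this
      exact absurd h4 (not_lt.2 this)
    · obtain ⟨t, h3, h4⟩ := exists_rat_btwn h2
      have := hm.monotone (h1.1 (show (t : RT h) ∈ {x | ι x < r} by simpa using h4))
      rw [map_ratCast] at this
      exact absurd h3 (not_lt.2 this)
  let j := (RingEquiv.ofBijective ι.toRingHom ⟨hι, hs⟩).symm
  have hj : ∀ a, ι (j a) = a := fun a =>
    (RingEquiv.ofBijective ι.toRingHom ⟨hι, hs⟩).apply_symm_apply a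
  refine ⟨fun a => (j a).1, ⟨fun a b e => j.injective (Subtype.ext e), fun z =>
    ⟨fun hz => ?_, fun ⟨a, e⟩ => e ▸ (j a).2⟩⟩, fun a b => ?_, fun a b => ?_, ?_, ?_, fun a b => ?_⟩
  · obtain ⟨a, ha⟩ := j.surjective ⟨z, hz⟩
    exact ⟨a, congrArg Subtype.val ha⟩
  · rw [map_add]; rfl
  · rw [map_mul]; rfl
  · rw [map_zero]; rfl
  · rw [map_one]; rfl
  · refine (RT.lt_iff (h := h)).symm.trans ?_
    rw [← hm.lt_iff_lt, hj, hj]

variable {R : Reals ZFSet.{u}} {K : Scalars ZFSet.{u}} {ρ : ℝ → ZFSet.{u}}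

theorem CodesReal.le (h : CodesReal R ρ) (a b : ℝ) : R.Le In (ρ a) (ρ b) ↔ a ≤ b := by
  rw [Reals.Le, h.lt, le_iff_lt_or_eq, h.car.eq_iff]

theorem CodesReal.allPos (h : CodesReal R ρ) {P : ZFSet.{u} → Prop} :
    (∀ ε, R.Pos In ε → P ε) ↔ ∀ e, 0 < e → P (ρ e) := by
  simp only [Reals.Pos, and_imp, h.car.all, h.zero, h.lt]

/-- the complex numbers -/
structure CodesCx (K : Scalars ZFSet.{u}) (ρ : ℝ → ZFSet.{u}) : Prop where
  car : Enum (cx ρ) K.car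
  add : ∀ a b, ap2 In K.add (cx ρ a) (cx ρ b) = cx ρ (a + b)
  mul : ∀ a b, ap2 In K.mul (cx ρ a) (cx ρ b) = cx ρ (a * b)
  one : K.one = cx ρ 1
  abs : ∀ a, ap In K.abs (cx ρ a) = ρ ‖a‖

theorem opair_cx (a b : ℝ) : opair In (ρ a) (ρ b) = cx ρ ⟨a, b⟩ := opair_eq _ _

theorem codesCx (h : CodesReal R ρ) (hK : IsComplexScalars In R K) : CodesCx K ρ := by
  have m := h.car.m
  have hc : Enum (cx ρ) K.car := by
    refine ⟨fun a b e => ?_, fun z => (hK.car z).trans ⟨?_, ?_⟩⟩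
    · obtain ⟨h1, h2⟩ := ZFSet.pair_inj.1 e
      exact Complex.ext (h.car.inj h1) (h.car.inj h2)
    · rintro ⟨a, b, ha, hb, e⟩
      obtain ⟨a, rfl⟩ := h.car.ex ha
      obtain ⟨b, rfl⟩ := h.car.ex hb
      exact ⟨⟨a, b⟩, (isOPair_iff.1 e).symm⟩
    · rintro ⟨c, rfl⟩
      exact ⟨_, _, m _, m _, isOPair_iff.2 rfl⟩
  refine ⟨hc, fun a b => ?_, fun a b => ?_, ?_, fun a => ?_⟩
  · have := hK.add _ _ _ _ (m a.re) (m a.im) (m b.re) (m b.im)
    rwa [h.add, h.add, opair_cx, opair_cx, opair_cx] at this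
  · have := hK.mul _ _ _ _ _ (m a.re) (m a.im) (m b.re) (m b.im) (m (a * b).re)
      (by rw [h.mul, h.mul, h.add, Complex.mul_re, sub_add_cancel])
    rwa [h.mul, h.mul, h.add, opair_cx, opair_cx, opair_cx] at this
  · rw [hK.one, h.one, h.zero, opair_cx]; rfl
  · obtain ⟨r, hr⟩ := h.car.ex (ap_mem hK.abs_fun (hc.m a))
    have h1 := hK.abs_nonneg _ (hc.m a)
    have h2 := hK.abs_sq _ _ (m a.re) (m a.im)
    rw [opair_cx] at h2
    change ap2 In R.mul (ap In K.abs (cx ρ a)) (ap In K.abs (cx ρ a)) = _ at h2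
    rw [← hr, h.zero, h.le] at h1
    rw [← hr, h.mul, h.mul, h.mul, h.add, h.car.eq_iff, ← Complex.normSq_apply,
      Complex.normSq_eq_norm_sq, ← sq] at h2
    rw [← hr, (pow_left_inj₀ h1 (norm_nonneg a) two_ne_zero).1 h2]

end Vale.Agent.P070ZS
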