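import Vale.Agent.P070ZS.Faith0
import Mathlib.Algebra.Group.MinimalAxioms
import Mathlib.Algebra.Module.MinimalAxioms

/-!
# The Hilbert spaces of the universe of sets are the codes of Hilbert spaces
-/

set_option linter.all false

namespace Vale.Agent.P070ZS

open Vale.Agent.P323.Z Vale.Agent.P129Z.S Vale.Agent.P070Z

universe u

variable {R : Reals ZFSet.{u}} {K : Scalars ZFSet.{u}} {ρ : ℝ → ZFSet.{u}} {H : Hilb ZFSet.{u}}

section

variable {L : Type*} [NormedAddCommGroup L] [InnerProductSpace ℂ L] {e : L → ZFSet.{u}}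

theorem CodesHilb.close (h : CodesHilb ρ H e) (hR : CodesReal R ρ) (r : ℝ) (x y : L) :
    Close In R H.toSpace (ρ r) (e x) (e y) ↔ ‖x - y‖ < r := by
  constructor
  · rintro ⟨z, hz, h1, h2⟩
    obtain ⟨z, rfl⟩ := h.car.ex hz
    rw [h.add, h.car.eq_iff] at h1
    rw [h.norm, hR.lt] at h2
    rwa [h1, add_sub_cancel_left]
  · intro h1
    exact ⟨_, h.car.m (x - y), by rw [h.add, add_sub_cancel], by rwa [h.norm, hR.lt]⟩

theorem CodesHilb.complete (h : CodesHilb ρ H e) (hR : CodesReal R ρ)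
    (hH : IsBanach In R K H.toSpace) : CompleteSpace L := by
  refine Metric.complete_of_cauchySeq_tendsto fun s hs => ?_
  have hw : IsOmega In (Ordinal.omega0.{u}.toZFSet) := P129B.C1.isOmega_omega0
  have hn := enum_nat hw
  obtain ⟨T, hT⟩ := hn.exists_gr fun n => e (s n)
  obtain ⟨x, hx, h1⟩ := hH.complete _ T hw (hT.isFunction hn fun n => h.car.m _)
    (hR.allPos.2 fun r hr => by
      obtain ⟨N, hN⟩ := Metric.cauchySeq_iff.1 hs r hr
      refine ⟨_, hn.m N, fun k l hk hl h1 h2 => ?_⟩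
      obtain ⟨k, rfl⟩ := hn.ex hk
      obtain ⟨l, rfl⟩ := hn.ex hl
      rw [hT.ap hn, hT.ap hn, h.close hR, ← dist_eq_norm]
      exact hN k (nat_lt.1 h1).le l (nat_lt.1 h2).le)
  obtain ⟨x, rfl⟩ := h.car.ex hx
  refine ⟨x, Metric.tendsto_atTop.2 fun r hr => ?_⟩
  obtain ⟨N, hN, h2⟩ := hR.allPos.1 h1 r hr
  obtain ⟨N, rfl⟩ := hn.ex hN
  refine ⟨N + 1, fun k hk => ?_⟩
  have := h2 _ (hn.m k) (nat_lt.2 hk)
  rwa [hT.ap hn, h.close hR, ← dist_eq_norm] at this

/-- Every Hilbert space has a code. -/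
theorem export_hilb [Small.{u} L] [CompleteSpace L] (hR : CodesReal R ρ) (hK : CodesCx K ρ) :
    ∃ (H : Hilb ZFSet.{u}) (e : L → ZFSet.{u}), IsHilbert In R K H ∧ CodesHilb ρ H e := by
  obtain ⟨e, he⟩ : ∃ e : L → ZFSet.{u}, Function.Injective e :=
    ⟨fun a => (embeddingToCardinal (equivShrink.{u} L a)).ord.toZFSet, fun _ _ h =>
      (equivShrink.{u} L).injective (embeddingToCardinal.injective
        (Cardinal.ord_injective (Ordinal.toZFSet_injective h)))⟩
  have hc := enum_range he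
  obtain ⟨a, a1, a2⟩ := exists_op2 hc hc (fun x y => e (x + y)) fun _ _ => hc.m _
  obtain ⟨s, s1, s2⟩ := exists_op2 hK.car hc (fun c x => e (c • x)) fun _ _ => hc.m _
  obtain ⟨i, i1, i2⟩ := exists_op2 hc hc (fun x y => cx ρ (inner ℂ x y)) fun _ _ => hK.car.m _
  obtain ⟨n, n1⟩ := hc.exists_gr fun x => ρ ‖x‖
  have h : CodesHilb ρ ⟨⟨_, a, e 0, s, n⟩, i⟩ e := ⟨hc, a2, rfl, s2, n1.ap hc, i2⟩
  refine ⟨_, e, ⟨⟨a1, s1, n1.isFunction hc fun _ => hR.car.m _, hc.m 0, ?_, ?_, ?_, ?_, ?_, ?_,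
    ?_, ?_, ?_, ?_, ?_, ?_⟩, i1, ?_, ?_, ?_, ?_⟩, h⟩
  · intro x y z hx hy hz
    obtain ⟨x, rfl⟩ := hc.ex hx
    obtain ⟨y, rfl⟩ := hc.ex hy
    obtain ⟨z, rfl⟩ := hc.ex hz
    simp only [a2, add_assoc]
  · intro x y hx hy
    obtain ⟨x, rfl⟩ := hc.ex hx
    obtain ⟨y, rfl⟩ := hc.ex hy
    simp only [a2, add_comm]
  · intro x hx
    obtain ⟨x, rfl⟩ := hc.ex hx
    simp only [a2, add_zero]
  · intro x hx
    obtain ⟨x, rfl⟩ := hc.ex hx
    exact ⟨_, hc.m (-x), by simp only [a2, add_neg_cancel]⟩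
  · intro x hx
    obtain ⟨x, rfl⟩ := hc.ex hx
    simp only [hK.one, s2, one_smul]
  · intro c d x h1 h2 hx
    obtain ⟨c, rfl⟩ := hK.car.ex h1
    obtain ⟨d, rfl⟩ := hK.car.ex h2
    obtain ⟨x, rfl⟩ := hc.ex hx
    simp only [hK.mul, s2, mul_smul]
  · intro c d x h1 h2 hx
    obtain ⟨c, rfl⟩ := hK.car.ex h1
    obtain ⟨d, rfl⟩ := hK.car.ex h2
    obtain ⟨x, rfl⟩ := hc.ex hx
    simp only [hK.add, s2, a2, add_smul]
  · intro c x y h1 hx hy
    obtain ⟨c, rfl⟩ := hK.car.ex h1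
    obtain ⟨x, rfl⟩ := hc.ex hx
    obtain ⟨y, rfl⟩ := hc.ex hy
    simp only [s2, a2, smul_add]
  · intro x hx h1
    obtain ⟨x, rfl⟩ := hc.ex hx
    rw [h.norm, hR.zero, hR.car.eq_iff, norm_eq_zero] at h1
    rw [h1]
  · intro c x h1 hx
    obtain ⟨c, rfl⟩ := hK.car.ex h1
    obtain ⟨x, rfl⟩ := hc.ex hx
    rw [h.smul, h.norm, h.norm, hK.abs, hR.mul, norm_smul]
  · intro x y hx hy
    obtain ⟨x, rfl⟩ := hc.ex hx
    obtain ⟨y, rfl⟩ := hc.ex hy
    rw [h.add, h.norm, h.norm, h.norm, hR.add, hR.le]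
    exact norm_add_le x y
  · intro w t hw ht h1
    have hn := enum_nat hw
    obtain ⟨f, hf⟩ := exists_fn ht hn hc
    obtain ⟨x, hx⟩ := cauchySeq_tendsto_of_complete (u := f) (Metric.cauchySeq_iff.2 fun r hr => by
      obtain ⟨N, hN, h2⟩ := hR.allPos.1 h1 r hr
      obtain ⟨N, rfl⟩ := hn.ex hN
      refine ⟨N + 1, fun k hk l hl => ?_⟩
      have := h2 _ _ (hn.m k) (hn.m l) (nat_lt.2 hk) (nat_lt.2 hl)
      rwa [hf.ap hn, hf.ap hn, h.close hR, ← dist_eq_norm] at this)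
    refine ⟨_, hc.m x, hR.allPos.2 fun r hr => ?_⟩
    obtain ⟨N, hN⟩ := Metric.tendsto_atTop.1 hx r hr
    refine ⟨_, hn.m N, hn.all.2 fun k hk => ?_⟩
    rw [hf.ap hn, h.close hR, ← dist_eq_norm]
    exact hN k (nat_lt.1 hk).le
  · intro x y z hx hy hz
    obtain ⟨x, rfl⟩ := hc.ex hx
    obtain ⟨y, rfl⟩ := hc.ex hy
    obtain ⟨z, rfl⟩ := hc.ex hz
    simp only [a2, i2, hK.add, inner_add_right]
  · intro c x y h1 hx hy
    obtain ⟨c, rfl⟩ := hK.car.ex h1
    obtain ⟨x, rfl⟩ := hc.ex hx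
    obtain ⟨y, rfl⟩ := hc.ex hy
    simp only [s2, i2, hK.mul, inner_smul_right]
  · intro x y p q r hx hy hp hq hr h1 h2
    obtain ⟨x, rfl⟩ := hc.ex hx
    obtain ⟨y, rfl⟩ := hc.ex hy
    obtain ⟨p, rfl⟩ := hR.car.ex hp
    obtain ⟨q, rfl⟩ := hR.car.ex hq
    obtain ⟨r, rfl⟩ := hR.car.ex hr
    rw [hR.add, hR.zero, hR.car.eq_iff] at h1
    rw [h.inner, opair_cx, hK.car.eq_iff] at h2
    rw [h.inner, opair_cx, ← inner_conj_symm, h2, ← neg_eq_of_add_eq_zero_right h1]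
    rfl
  · intro x hx
    obtain ⟨x, rfl⟩ := hc.ex hx
    rw [h.inner, h.norm, hR.mul, hR.zero, opair_cx, inner_self_eq_norm_sq_to_K, ← sq]
    exact congrArg _ (Complex.ofReal_pow _ _).symm

end

theorem import_aux (hR : CodesReal R ρ) (hK : CodesCx K ρ) (h : IsHilbert In R K H) (L : Type u)
    (e : L → ZFSet.{u}) (he : Enum e H.car) :
    ∃ (_ : NormedAddCommGroup L) (_ : InnerProductSpace ℂ L), CodesHilb ρ H e := by
  have b := h.banach
  have m := he.m
  have k := hK.car.m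
  choose add hadd using fun x y => he.ex (ap2_mem b.add_op (m x) (m y))
  choose smul hsmul using fun c x => he.ex (ap2_mem b.smul_op (k c) (m x))
  choose nrm hnrm using fun x => hR.car.ex (ap_mem b.norm_fun (m x))
  choose ip hip using fun x y => hK.car.ex (ap2_mem h.inner_op (m x) (m y))
  obtain ⟨o, ho⟩ := he.ex b.zero_mem
  have hn : ∀ x, ∃ y, add x y = o := fun x => by
    obtain ⟨y, hy, h1⟩ := b.add_neg _ (m x)
    obtain ⟨y, rfl⟩ := he.ex hy
    exact ⟨y, he.inj (by rw [hadd, h1, ho])⟩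
  choose neg hneg using hn
  letI : Add L := ⟨add⟩
  letI : Zero L := ⟨o⟩
  letI : Neg L := ⟨neg⟩
  letI : SMul ℂ L := ⟨smul⟩
  have ea : ∀ x y : L, e (x + y) = ap2 In H.add (e x) (e y) := hadd
  have es : ∀ (c : ℂ) (x : L), e (c • x) = ap2 In H.smul (cx ρ c) (e x) := hsmul
  letI : AddCommGroup L :=
    { AddGroup.ofRightAxioms (G := L)
        (fun x y z => he.inj (by
          simp only [ea]
          exact b.add_assoc _ _ _ (m x) (m y) (m z)))
        (fun x => he.inj ((ea _ _).trans (ho ▸ b.add_zero _ (m x) :))) hneg with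
      add_comm := fun x y => he.inj (by rw [ea, ea]; exact b.add_comm _ _ (m x) (m y)) }
  letI : Module ℂ L := Module.ofMinimalAxioms
    (fun c x y => he.inj (by
      rw [es, ea, ea, es, es]; exact b.smul_add _ _ _ (k c) (m x) (m y)))
    (fun c d x => he.inj (by
      rw [es, ea, es, es, ← hK.add]; exact b.add_smul _ _ _ (k c) (k d) (m x)))
    (fun c d x => he.inj (by
      rw [es, es, es, ← hK.mul]; exact b.mul_smul _ _ _ (k c) (k d) (m x)))
    (fun x => he.inj (by rw [es, ← hK.one]; exact b.one_smul _ (m x)))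
  have n1 : ∀ (c : ℂ) (x : L), nrm (c • x) = ‖c‖ * nrm x := fun c x => hR.car.inj (by
    rw [hnrm, es, b.norm_smul _ _ (k c) (m x), hK.abs, ← hnrm, hR.mul])
  have n2 : ∀ x y : L, nrm (x + y) ≤ nrm x + nrm y := fun x y => by
    have := b.norm_add _ _ (m x) (m y)
    rwa [← ea, ← hnrm, ← hnrm, ← hnrm, hR.add, hR.le] at this
  have n3 : ∀ x : L, 0 ≤ nrm x := fun x => by
    have h1 := n2 x ((-1 : ℂ) • x)
    have h2 := n1 0 x
    rw [n1, neg_one_smul, add_neg_cancel, norm_neg, norm_one] at h1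
    rw [zero_smul, norm_zero] at h2
    linarith
  have i1 : ∀ x y : L, starRingEnd ℂ (ip y x) = ip x y := fun x y => hK.car.inj (by
    have r := hR.car.m
    rw [hip x y, h.inner_conj _ _ _ _ _ (m y) (m x) (r (ip y x).re) (r (ip y x).im)
      (r (-(ip y x).im)) (by rw [hR.add, add_neg_cancel, hR.zero]) (by rw [← hip, opair_cx]),
      opair_cx]
    rfl)
  have i2 : ∀ x : L, ip x x = ⟨nrm x * nrm x, 0⟩ := fun x => hK.car.inj (by
    rw [hip, h.inner_self _ (m x), ← hnrm, hR.mul, hR.zero, opair_cx])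
  have i3 : ∀ x y z : L, ip x (y + z) = ip x y + ip x z := fun x y z => hK.car.inj (by
    rw [hip, ea, h.inner_add _ _ _ (m x) (m y) (m z), ← hip, ← hip, hK.add])
  have i4 : ∀ (c : ℂ) (x y : L), ip x (c • y) = c * ip x y := fun c x y => hK.car.inj (by
    rw [hip, es, h.inner_smul _ _ _ (k c) (m x) (m y), ← hip, hK.mul])
  letI core : InnerProductSpace.Core ℂ L :=
    { inner := ip
      conj_inner_symm := i1
      re_inner_nonneg := fun x => by
        rw [i2]
        exact mul_self_nonneg _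
      add_left := fun x y z => by rw [← i1 (x + y), i3, map_add, i1, i1]
      smul_left := fun x y r => by rw [← i1 (r • x), i4, map_mul, i1]
      definite := fun x hx => he.inj (by
        have h1 : nrm x = 0 := mul_self_eq_zero.1 (congrArg Complex.re ((i2 x).symm.trans hx))
        rw [b.eq_zero_of_norm _ (m x) (by rw [← hnrm, h1, hR.zero])]
        exact ho.symm) }
  letI := core.toNormedAddCommGroup
  letI : InnerProductSpace ℂ L := InnerProductSpace.ofCore core.toCore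
  refine ⟨inferInstance, inferInstance, he, fun x y => (ea x y).symm, ho.symm,
    fun c x => (es c x).symm, fun x => ?_, fun x y => (hip x y).symm⟩
  rw [← hnrm]
  congr 1
  change _ = √(RCLike.re (ip x x))
  rw [i2]
  exact (Real.sqrt_mul_self (n3 x)).symm

/-- Every Hilbert space of the universe of sets is the code of a Hilbert space. -/
theorem import_hilb (hR : CodesReal R ρ) (hK : CodesCx K ρ) (h : IsHilbert In R K H) :
    ∃ (L : Type u) (_ : NormedAddCommGroup L) (_ : InnerProductSpace ℂ L) (_ : CompleteSpace L)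
      (e : L → ZFSet.{u}), CodesHilb ρ H e := by
  obtain ⟨_, _, h1⟩ := import_aux hR hK h _ _ (enum_shrink H.car)
  exact ⟨_, _, _, h1.complete hR h.banach, _, h1⟩

end Vale.Agent.P070ZS
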