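import Vale.Agent.P070ZS.Faith1

/-!
# Operators and C*-algebras of the universe of sets
-/

set_option linter.all false

namespace Vale.Agent.P070ZS

open Vale.Agent.P323.Z Vale.Agent.P129Z.S Vale.Agent.P070Z

universe u

variable {R : Reals ZFSet.{u}} {K : Scalars ZFSet.{u}} {ρ : ℝ → ZFSet.{u}} {H G : Hilb ZFSet.{u}}
  {L : Type*} [NormedAddCommGroup L] [InnerProductSpace ℂ L] {e : L → ZFSet.{u}}
  {M : Type*} [NormedAddCommGroup M] [InnerProductSpace ℂ M] {d : M → ZFSet.{u}}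

theorem linear_iff (hK : CodesCx K ρ) (h : CodesHilb ρ H e) (g : CodesHilb ρ G d) {f : L → M}
    {T : ZFSet.{u}} (hT : IsGr e (fun x => d (f x)) T) : IsLinear In K H G T ↔
      (∀ x y, f (x + y) = f x + f y) ∧ ∀ (c : ℂ) x, f (c • x) = c • f x := by
  constructor
  · rintro ⟨-, h1, h2⟩
    refine ⟨fun x y => ?_, fun c x => ?_⟩
    · have := h1 _ _ (h.car.m x) (h.car.m y)
      rwa [h.add, hT.ap h.car, hT.ap h.car, hT.ap h.car, g.add, g.car.eq_iff] at this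
    · have := h2 _ _ (hK.car.m c) (h.car.m x)
      rwa [h.smul, hT.ap h.car, hT.ap h.car, g.smul, g.car.eq_iff] at this
  · rintro ⟨h1, h2⟩
    refine ⟨hT.isFunction h.car fun _ => g.car.m _, fun x y hx hy => ?_, fun c x hc hx => ?_⟩
    · obtain ⟨a, rfl⟩ := h.car.ex hx
      obtain ⟨b, rfl⟩ := h.car.ex hy
      rw [h.add, hT.ap h.car, hT.ap h.car, hT.ap h.car, g.add, h1]
    · obtain ⟨a, rfl⟩ := hK.car.ex hc
      obtain ⟨b, rfl⟩ := h.car.ex hx
      rw [h.smul, hT.ap h.car, hT.ap h.car, g.smul, h2]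

/-- the graph of an operator -/
noncomputable def gph (H : Hilb ZFSet.{u}) (e : L → ZFSet.{u}) (S : L →L[ℂ] L) : ZFSet.{u} :=
  (H.car.prod H.car).sep fun p => ∃ x, ZFSet.pair (e x) (e (S x)) = p

namespace CodesHilb

variable (h : CodesHilb ρ H e)
include h

theorem isGr (S : L →L[ℂ] L) : IsGr e (fun x => e (S x)) (gph H e S) := fun p =>
  ZFSet.mem_sep.trans (and_iff_right_of_imp fun ⟨x, hx⟩ =>
    ZFSet.mem_prod.2 ⟨_, h.car.m x, _, h.car.m _, hx.symm⟩)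

theorem ap (S : L →L[ℂ] L) (x : L) : ap In (gph H e S) (e x) = e (S x) := (h.isGr S).ap h.car x

theorem gph_inj : Function.Injective (gph H e) := fun S T c =>
  ContinuousLinearMap.ext fun x => h.car.inj (by rw [← h.ap, c, h.ap])

theorem oper_iff (hR : CodesReal R ρ) (hK : CodesCx K ρ) {T : ZFSet.{u}} :
    IsOper In R K H T ↔ ∃ S, gph H e S = T := by
  constructor
  · rintro ⟨h1, C, hC, h2⟩
    obtain ⟨f, hf⟩ := exists_fn h1.1 h.car h.car
    obtain ⟨C, rfl⟩ := hR.car.ex hC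
    obtain ⟨h3, h4⟩ := (linear_iff hK h h hf).1 h1
    refine ⟨LinearMap.mkContinuous ⟨⟨f, h3⟩, h4⟩ C fun x => ?_, (h.isGr _).unique hf⟩
    have := h2 _ (h.car.m x)
    rwa [hf.ap h.car, h.norm, h.norm, hR.mul, hR.le] at this
  · rintro ⟨S, rfl⟩
    refine ⟨(linear_iff hK h h (h.isGr S)).2 ⟨map_add S, map_smul S⟩, _, hR.car.m ‖S‖,
      h.car.all.2 fun x => ?_⟩
    rw [h.ap, h.norm, h.norm, hR.mul, hR.le]
    exact S.le_opNorm x

variable {S T U : L →L[ℂ] L}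

theorem isAdd : IsAdd In H (gph H e S) (gph H e T) (gph H e U) ↔ U = S + T := by
  simp only [IsAdd, h.car.all, h.ap, h.add, h.car.eq_iff, ContinuousLinearMap.ext_iff,
    ContinuousLinearMap.add_apply]

theorem isSMul {c : ℂ} : IsSMul In H (cx ρ c) (gph H e T) (gph H e U) ↔ U = c • T := by
  simp only [IsSMul, h.car.all, h.ap, h.smul, h.car.eq_iff, ContinuousLinearMap.ext_iff,
    ContinuousLinearMap.smul_apply]

theorem isMul : IsMul In H (gph H e S) (gph H e T) (gph H e U) ↔ U = S * T := by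
  simp only [IsMul, h.car.all, h.ap, h.car.eq_iff, ContinuousLinearMap.ext_iff,
    ContinuousLinearMap.mul_apply]

theorem isAdj [CompleteSpace L] (hK : CodesCx K ρ) :
    IsAdj In H (gph H e T) (gph H e U) ↔ U = star T := by
  rw [ContinuousLinearMap.star_eq_adjoint, ContinuousLinearMap.eq_adjoint_iff]
  constructor
  · intro h1 x y
    have := h1 _ _ (h.car.m x) (h.car.m y)
    rwa [h.ap, h.ap, h.inner, h.inner, hK.car.eq_iff] at this
  · intro h1 x y hx hy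
    obtain ⟨a, rfl⟩ := h.car.ex hx
    obtain ⟨b, rfl⟩ := h.car.ex hy
    rw [h.ap, h.ap, h.inner, h.inner, h1]

theorem inBall (hR : CodesReal R ρ) {P : ZFSet.{u} → Prop} :
    (∀ x, InBall In R H x → P x) ↔ ∀ a, ‖a‖ ≤ 1 → P (e a) := by
  simp only [InBall, and_imp, h.car.all, h.norm, hR.one, hR.le]

theorem compact_iff [CompleteSpace L] (hR : CodesReal R ρ) :
    IsCompactOp In R H (gph H e T) ↔ IsCompactOperator T := by
  have h0 : IsCompactOperator T ↔ TotallyBounded (T '' Metric.closedBall 0 1) :=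
    (isCompactOperator_iff_isCompact_closure_image_closedBall T.toLinearMap one_pos).trans
      ⟨fun h1 => h1.totallyBounded.subset subset_closure, fun h1 =>
        h1.closure.isCompact_of_isClosed isClosed_closure⟩
  rw [h0, Metric.totallyBounded_iff, IsCompactOp, hR.allPos]
  refine forall_congr' fun r => forall_congr' fun _ => ⟨?_, ?_⟩
  · rintro ⟨F, h1, h2, h3⟩
    have := isFinite_iff.1 h1
    refine ⟨{y | In (e y) F}, Finite.of_injective
      (fun y : {y | In (e y) F} => (⟨e y.1, y.2⟩ : F))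
      fun a b c => Subtype.ext (h.car.inj (congrArg Subtype.val c)), ?_⟩
    rintro _ ⟨x, hx, rfl⟩
    obtain ⟨y, hy, h4⟩ := (h.inBall hR).1 h3 x (mem_closedBall_zero_iff.1 hx)
    obtain ⟨y, rfl⟩ := h.car.ex (h2 _ hy)
    rw [h.ap, h.close hR] at h4
    exact Set.mem_biUnion (x := y) hy (mem_ball_iff_norm.2 h4)
  · rintro ⟨t, h1, h2⟩
    obtain ⟨F, hF⟩ := h.car.exists_im t
    have := h1.to_subtype
    refine ⟨F, isFinite_iff.2 (Finite.of_surjective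
      (fun y : t => (⟨e y.1, (hF _).2 ⟨y.1, y.2, rfl⟩⟩ : F)) fun z => ?_), fun z hz => ?_,
      (h.inBall hR).2 fun x hx => ?_⟩
    · obtain ⟨y, hy, c⟩ := (hF _).1 z.2
      exact ⟨⟨y, hy⟩, Subtype.ext c⟩
    · obtain ⟨y, -, rfl⟩ := (hF _).1 hz
      exact h.car.m y
    · obtain ⟨y, hy, h3⟩ := Set.mem_iUnion₂.1 (h2 ⟨x, mem_closedBall_zero_iff.2 hx, rfl⟩)
      refine ⟨_, (hF _).2 ⟨y, hy, rfl⟩, ?_⟩
      rw [h.ap, h.close hR]
      exact mem_ball_iff_norm.1 h3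

theorem alg_iff {A : ZFSet.{u}} {B : Set (L →L[ℂ] L)} :
    CodesAlg e A B ↔ ∀ T, In T A ↔ ∃ S ∈ B, gph H e S = T :=
  forall_congr' fun T => iff_congr Iff.rfl (exists_congr fun S => and_congr Iff.rfl
    ⟨fun c => (h.isGr S).unique c, fun c => c ▸ h.isGr S⟩)

theorem closed_iff (hR : CodesReal R ρ) {A : ZFSet.{u}} {B : Set (L →L[ℂ] L)}
    (hA : ∀ T, In T A ↔ ∃ S ∈ B, gph H e S = T) : (∀ ε, R.Pos In ε → ∃ S, In S A ∧
      ∀ x, InBall In R H x → Close In R H.toSpace ε (P129Z.S.ap In (gph H e T) x)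
        (P129Z.S.ap In S x)) ↔ T ∈ closure B := by
  rw [hR.allPos, Metric.mem_closure_iff]
  constructor
  · intro h1 r hr
    obtain ⟨S, hS, h2⟩ := h1 (r / 2) (half_pos hr)
    obtain ⟨S, hS', rfl⟩ := (hA _).1 hS
    refine ⟨S, hS', lt_of_le_of_lt ?_ (half_lt_self hr)⟩
    rw [dist_eq_norm]
    refine ContinuousLinearMap.opNorm_le_of_unit_norm (half_pos hr).le fun x hx => ?_
    have := (h.inBall hR).1 h2 x hx.le
    rw [h.ap, h.ap, h.close hR] at this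
    exact this.le
  · intro h1 r hr
    obtain ⟨S, hS, h2⟩ := h1 r hr
    refine ⟨_, (hA _).2 ⟨S, hS, rfl⟩, (h.inBall hR).2 fun x hx => ?_⟩
    rw [h.ap, h.ap, h.close hR]
    rw [dist_eq_norm] at h2
    exact ((T - S).unit_le_opNorm x hx).trans_lt h2

variable [CompleteSpace L]

/-- A C*-algebra of the universe of sets codes a closed `*`-subalgebra. -/
theorem import_alg (hR : CodesReal R ρ) (hK : CodesCx K ρ) {A : ZFSet.{u}}
    (hA : IsCStar In R K H A) : ∃ B : NonUnitalStarSubalgebra ℂ (L →L[ℂ] L),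
      IsClosed (B : Set (L →L[ℂ] L)) ∧ CodesAlg e A B := by
  have g : ∀ U, In U A → ∃ S, gph H e S = U := fun U hU => (h.oper_iff hR hK).1 (hA.oper U hU)
  have k : ∀ T, In T A ↔ ∃ S ∈ {S | In (gph H e S) A}, gph H e S = T := fun T =>
    ⟨fun hT => (g T hT).elim fun S c => ⟨S, show In (gph H e S) A from c ▸ hT, c⟩,
      fun ⟨S, hS, c⟩ => c ▸ hS⟩
  refine ⟨{ carrier := {S | In (gph H e S) A}
            add_mem' := fun {S T} hS hT => ?_
            zero_mem' := ?_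
            mul_mem' := fun {S T} hS hT => ?_
            smul_mem' := fun c T hT => ?_
            star_mem' := fun {T} hT => ?_ }, closure_subset_iff_isClosed.1 fun T hT => ?_,
    h.alg_iff.2 k⟩
  · obtain ⟨U, hU, h1⟩ := hA.add _ _ hS hT
    obtain ⟨U, rfl⟩ := g U hU
    exact h.isAdd.1 h1 ▸ hU
  · obtain ⟨U, hU, h1⟩ := hA.zero
    obtain ⟨U, rfl⟩ := g U hU
    have : U = 0 := ContinuousLinearMap.ext fun x => h.car.inj (by
      rw [← h.ap, h1 _ (h.car.m x), h.zero]; rfl)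
    exact this ▸ hU
  · obtain ⟨U, hU, h1⟩ := hA.mul _ _ hS hT
    obtain ⟨U, rfl⟩ := g U hU
    exact h.isMul.1 h1 ▸ hU
  · obtain ⟨U, hU, h1⟩ := hA.smul _ _ (hK.car.m c) hT
    obtain ⟨U, rfl⟩ := g U hU
    exact h.isSMul.1 h1 ▸ hU
  · obtain ⟨U, hU, h1⟩ := hA.adj _ hT
    obtain ⟨U, rfl⟩ := g U hU
    exact (h.isAdj hK).1 h1 ▸ hU
  · exact hA.closed _ ((h.oper_iff hR hK).2 ⟨T, rfl⟩) ((h.closed_iff hR k).2 hT)

/-- A closed `*`-subalgebra has a code. -/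
theorem export_alg (hR : CodesReal R ρ) (hK : CodesCx K ρ)
    (B : NonUnitalStarSubalgebra ℂ (L →L[ℂ] L)) (hB : IsClosed (B : Set (L →L[ℂ] L))) :
    ∃ A, IsCStar In R K H A ∧ CodesAlg e A B := by
  obtain ⟨A, k⟩ : ∃ A : ZFSet.{u}, ∀ T, In T A ↔ ∃ S ∈ (B : Set (L →L[ℂ] L)), gph H e S = T :=
    ⟨(H.car.prod H.car).powerset.sep _, fun T => ZFSet.mem_sep.trans (and_iff_right_of_imp
      fun ⟨S, _, c⟩ => c ▸ ZFSet.mem_powerset.2 fun p hp => (ZFSet.mem_sep.1 hp).1)⟩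
  refine ⟨A, ⟨fun T hT => ?_, ⟨_, (k _).2 ⟨0, B.zero_mem, rfl⟩, h.car.all.2 fun x => ?_⟩,
    fun S T hS hT => ?_, fun c T hc hT => ?_, fun S T hS hT => ?_, fun T hT => ?_,
    fun T hT h1 => ?_⟩, h.alg_iff.2 k⟩
  · obtain ⟨T, -, rfl⟩ := (k _).1 hT
    exact (h.oper_iff hR hK).2 ⟨T, rfl⟩
  · rw [h.ap, h.zero]; rfl
  · obtain ⟨S, hS', rfl⟩ := (k _).1 hS
    obtain ⟨T, hT', rfl⟩ := (k _).1 hT
    exact ⟨_, (k _).2 ⟨_, add_mem hS' hT', rfl⟩, h.isAdd.2 rfl⟩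
  · obtain ⟨c, rfl⟩ := hK.car.ex hc
    obtain ⟨T, hT', rfl⟩ := (k _).1 hT
    exact ⟨_, (k _).2 ⟨_, B.smul_mem c hT', rfl⟩, h.isSMul.2 rfl⟩
  · obtain ⟨S, hS', rfl⟩ := (k _).1 hS
    obtain ⟨T, hT', rfl⟩ := (k _).1 hT
    exact ⟨_, (k _).2 ⟨_, mul_mem hS' hT', rfl⟩, h.isMul.2 rfl⟩
  · obtain ⟨T, hT', rfl⟩ := (k _).1 hT
    exact ⟨_, (k _).2 ⟨_, star_mem hT', rfl⟩, (h.isAdj hK).2 rfl⟩
  · obtain ⟨T, rfl⟩ := (h.oper_iff hR hK).1 hT
    exact (k _).2 ⟨T, hB.closure_subset ((h.closed_iff hR k).1 h1), rfl⟩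

end CodesHilb

end Vale.Agent.P070ZS
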