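import Vale.Agent.P070ZS.Faith
import Vale.Agent.P070ZS.Codes2
import Mathlib.Analysis.CStarAlgebra.Hom

/-!
# Faithfulness for C*-algebras with an injective representation
-/

set_option linter.all false

namespace Vale.Agent.P070ZS

open Vale.Agent.P323.Z Vale.Agent.P129Z.S Vale.Agent.P070Z Vale.Agent.P070

universe u

section

variable {B C : Type u} [NonUnitalCStarAlgebra B] [NonUnitalCStarAlgebra C]

/-- a representation composed with an isomorphism -/
noncomputable def pull (j : B ≃⋆ₐ[ℂ] C) {M : Type u} [NormedAddCommGroup M]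
    [InnerProductSpace ℂ M] [CompleteSpace M] (π : Naimark.Rep C M) : Naimark.Rep B M :=
  NonUnitalStarAlgHom.comp π (j : B →⋆ₙₐ[ℂ] C)

theorem pull_op (j : B ≃⋆ₐ[ℂ] C) {M : Type u} [NormedAddCommGroup M]
    [InnerProductSpace ℂ M] [CompleteSpace M] (π : Naimark.Rep C M) (b : B) :
    (pull j π).op b = π.op (j b) := rfl

theorem propertyN_of (j : B ≃⋆ₐ[ℂ] C) (h : Naimark.PropertyN.{u, u} B) :
    Naimark.PropertyN.{u, u} C := by
  have key : ∀ (M : Type u) [NormedAddCommGroup M] [InnerProductSpace ℂ M] [CompleteSpace M]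
      (π : Naimark.Rep C M), Naimark.IsIrred π → Naimark.IsIrred (pull j π) := by
    rintro M _ _ _ π ⟨⟨a, x, h1⟩, h2⟩
    refine ⟨⟨j.symm a, x, by rwa [pull_op, j.apply_symm_apply]⟩, fun V hV h3 => h2 V hV
      fun a x hx => ?_⟩
    have := h3 (j.symm a) x hx
    rwa [pull_op, j.apply_symm_apply] at this
  have := h.1
  refine ⟨(EquivLike.injective j).nontrivial, fun L M _ _ _ _ _ _ π σ h1 h2 => ?_⟩
  obtain ⟨W, hW⟩ := h.2 L M _ _ (key L π h1) (key M σ h2)
  refine ⟨W, fun a x => ?_⟩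
  have := hW (j.symm a) x
  rwa [pull_op, pull_op, j.apply_symm_apply] at this

theorem isCompacts_of (j : B ≃⋆ₐ[ℂ] C) (h : Naimark.IsCompacts.{u, u} C) :
    Naimark.IsCompacts.{u, u} B := by
  obtain ⟨L, _, _, _, π, h1, h2⟩ := h
  refine ⟨L, _, _, _, pull j π, fun a b c => EquivLike.injective j (h1 c), fun T =>
    (h2 T).trans ⟨fun ⟨a, ha⟩ => ⟨j.symm a, by rwa [pull_op, j.apply_symm_apply]⟩,
      fun ⟨a, ha⟩ => ⟨_, ha⟩⟩⟩

end

variable {R : Reals ZFSet.{u}} {K : Scalars ZFSet.{u}} {ρ : ℝ → ZFSet.{u}}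
  {H : Hilb ZFSet.{u}} {A : ZFSet.{u}}

theorem exists_range {B L : Type u} [NonUnitalCStarAlgebra B] [NormedAddCommGroup L]
    [InnerProductSpace ℂ L] [CompleteSpace L] {π : Naimark.Rep B L} (h : Naimark.IsFaithful π) :
    ∃ (S : NonUnitalStarSubalgebra ℂ (L →L[ℂ] L)) (_ : IsClosed (S : Set (L →L[ℂ] L))),
      (∀ T, T ∈ (S : Set (L →L[ℂ] L)) ↔ ∃ b, π.op b = T) ∧ Nonempty (B ≃⋆ₐ[ℂ] S) := by
  let π' : B →⋆ₙₐ[ℂ] (L →L[ℂ] L) := π
  have h' : Function.Injective π' := h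
  exact ⟨NonUnitalStarAlgHom.range π',
    (NonUnitalStarAlgHom.isometry π' h').isClosedEmbedding.isClosed_range, fun T => Iff.rfl,
    ⟨StarAlgEquiv.ofBijective (NonUnitalStarAlgHom.rangeRestrict π')
      ⟨fun a b c => h' (congrArg Subtype.val c), fun ⟨_, b, c⟩ => ⟨b, Subtype.ext c⟩⟩⟩⟩

theorem alg_range {B L : Type u} [NonUnitalCStarAlgebra B] [NormedAddCommGroup L]
    [InnerProductSpace ℂ L] [CompleteSpace L] {π : Naimark.Rep B L} {e : L → ZFSet.{u}}
    {S : Set (L →L[ℂ] L)} (h : ∀ T, T ∈ S ↔ ∃ b, π.op b = T) : CodesAlg e A S ↔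
      ∀ T, In T A ↔ ∃ b, ∀ p, In p T ↔ ∃ x, ZFSet.pair (e x) (e (π.op b x)) = p :=
  forall_congr' fun T => iff_congr Iff.rfl
    ⟨fun ⟨U, hU, c⟩ => ((h U).1 hU).elim fun b d => ⟨b, d ▸ c⟩,
      fun ⟨b, c⟩ => ⟨_, (h _).2 ⟨b, rfl⟩, c⟩⟩

/-- Every C*-algebra of the universe of sets codes a C*-algebra of operators. -/
theorem codes_import (hR : CodesReal R ρ) (hK : IsComplexScalars In R K)
    (hH : IsHilbert In R K H) (hA : IsCStar In R K H A) :
    ∃ (B L : Type u) (_ : NonUnitalCStarAlgebra B) (_ : NormedAddCommGroup L)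
      (_ : InnerProductSpace ℂ L) (_ : CompleteSpace L) (π : Naimark.Rep B L)
      (e : L → ZFSet.{u}), Codes ρ H A π e := by
  obtain ⟨L, _, _, _, e, S, hS, h1, h2⟩ := faith_import hR hK hH hA
  let π : Naimark.Rep S L := NonUnitalStarSubalgebraClass.subtype S
  exact ⟨S, L, _, _, _, _, π, e, Subtype.val_injective, h1, (alg_range (π := π) fun T =>
    ⟨fun hT => ⟨⟨T, hT⟩, rfl⟩, fun ⟨b, c⟩ => c ▸ b.2⟩).1 h2⟩

/-- Every C*-algebra of operators has a code. -/
theorem codes_export (hR : CodesReal R ρ) (hK : IsComplexScalars In R K) {B L : Type u}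
    [NonUnitalCStarAlgebra B] [NormedAddCommGroup L] [InnerProductSpace ℂ L] [CompleteSpace L]
    (π : Naimark.Rep B L) (h : Naimark.IsFaithful π) :
    ∃ (H : Hilb ZFSet.{u}) (A : ZFSet.{u}) (e : L → ZFSet.{u}),
      IsHilbert In R K H ∧ IsCStar In R K H A ∧ Codes ρ H A π e := by
  obtain ⟨S, hS, h1, -⟩ := exists_range h
  obtain ⟨H, A, e, h2, h3, h4, h5⟩ := faith_export hR hK L S hS
  exact ⟨H, A, e, h2, h3, h, h4, (alg_range h1).1 h5⟩

/-- The two properties of a code are the properties of the coded algebra. -/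
theorem codes_transfer (hR : CodesReal R ρ) (hK : IsComplexScalars In R K) {B L : Type u}
    [NonUnitalCStarAlgebra B] [NormedAddCommGroup L] [InnerProductSpace ℂ L] [CompleteSpace L]
    {π : Naimark.Rep B L} {e : L → ZFSet.{u}} (h : Codes ρ H A π e) :
    (PropN In R K H A ↔ Naimark.PropertyN.{u, u} B) ∧
      (IsCompacts In R K H A ↔ Naimark.IsCompacts.{u, u} B) := by
  obtain ⟨S, hS, h1, ⟨j⟩⟩ := exists_range h.faithful
  obtain ⟨h2, h3⟩ := faith_transfer hR hK S h.hilb ((alg_range h1).2 h.alg)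
  exact ⟨h2.trans ⟨propertyN_of j.symm, propertyN_of j⟩,
    h3.trans ⟨isCompacts_of j, isCompacts_of j.symm⟩⟩

/-- In the universe of sets, `Counter` is the existence of a counterexample. -/
theorem codes_counter : Counter In.{u} ↔
    ∃ (B L : Type u) (_ : NonUnitalCStarAlgebra B) (_ : NormedAddCommGroup L)
      (_ : InnerProductSpace ℂ L) (_ : CompleteSpace L) (π : Naimark.Rep B L),
      Naimark.IsFaithful π ∧ Naimark.PropertyN.{u, u} B ∧ ¬ Naimark.IsCompacts.{u, u} B := by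
  constructor
  · rintro ⟨⟨R, K, hR, hK⟩, h⟩
    obtain ⟨H, A, h1, h2, h3, h4⟩ := h R K hR hK
    obtain ⟨ρ, hρ⟩ := faith_real hR
    obtain ⟨B, L, _, _, _, _, π, e, h5⟩ := codes_import hρ hK h1 h2
    obtain ⟨h7, h8⟩ := codes_transfer hρ hK h5
    exact ⟨B, L, _, _, _, _, π, h5.faithful, h7.1 h3, fun c => h4 (h8.2 c)⟩
  · rintro ⟨B, L, _, _, _, _, π, h, h1, h2⟩
    refine ⟨exists_scalars, fun R K hR hK => ?_⟩
    obtain ⟨ρ, hρ⟩ := faith_real hR
    obtain ⟨H, A, e, h3, h4, h5⟩ := codes_export hρ hK π h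
    obtain ⟨h7, h8⟩ := codes_transfer hρ hK h5
    exact ⟨H, A, h3, h4, h7.2 h1, fun c => h2 (h8.1 c)⟩

end Vale.Agent.P070ZS
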