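import Vale.Agent.P129Z.Stmt

/-!
# Naimark's problem in a model of set theory

`(M, E)` is a set `M` with a binary relation `E`; read `E x y` as `x ∈ y`. This file defines, in
`(M, E)`, C*-algebras, Hilbert spaces, representations, property (N) and the algebras of compact
operators. All quantifiers range over `M`. `R` is the field of real numbers of the model and
`K = R × R` its field of complex numbers.
-/

namespace Vale.Agent.P070Z.S

open Vale.Agent.P323.Z Vale.Agent.P129Z.S

/-- The data of a normed `*`-algebra: a normed space, a multiplication and an involution. -/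
structure Alg (M : Type*) extends Space M where
  mul : M
  star : M

/-- The data of an inner product space: a normed space and an inner product. -/
structure Hilb (M : Type*) extends Space M where
  ip : M

variable {M : Type*} (E : M → M → Prop) (R : Reals M) (K : Scalars M)

/-- `w` is the complex conjugate of `z`: `z = (a, b)`, `w = (a, c)` and `b + c = 0`. -/
def Conj (z w : M) : Prop :=
  ∃ a b c, E a R.car ∧ E b R.car ∧ E c R.car ∧ z = opair E a b ∧ w = opair E a c ∧
    ap2 E R.add b c = R.zero

/-- `A` is a C*-algebra: a complex Banach `*`-algebra with `‖a* a‖ = ‖a‖²`. -/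
structure IsCStar (A : Alg M) : Prop where
  banach : IsBanach E R K A.toSpace
  mul_op : IsOp2 E A.mul A.car A.car A.car
  star_fun : IsFunction E A.star A.car A.car
  mul_assoc : ∀ a b c, E a A.car → E b A.car → E c A.car →
    ap2 E A.mul (ap2 E A.mul a b) c = ap2 E A.mul a (ap2 E A.mul b c)
  mul_add : ∀ a b c, E a A.car → E b A.car → E c A.car →
    ap2 E A.mul a (ap2 E A.add b c) = ap2 E A.add (ap2 E A.mul a b) (ap2 E A.mul a c)
  add_mul : ∀ a b c, E a A.car → E b A.car → E c A.car →
    ap2 E A.mul (ap2 E A.add a b) c = ap2 E A.add (ap2 E A.mul a c) (ap2 E A.mul b c)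
  smul_mul : ∀ z a b, E z K.car → E a A.car → E b A.car →
    ap2 E A.mul (ap2 E A.smul z a) b = ap2 E A.smul z (ap2 E A.mul a b)
  mul_smul : ∀ z a b, E z K.car → E a A.car → E b A.car →
    ap2 E A.mul a (ap2 E A.smul z b) = ap2 E A.smul z (ap2 E A.mul a b)
  star_star : ∀ a, E a A.car → ap E A.star (ap E A.star a) = a
  star_add : ∀ a b, E a A.car → E b A.car →
    ap E A.star (ap2 E A.add a b) = ap2 E A.add (ap E A.star a) (ap E A.star b)
  star_mul : ∀ a b, E a A.car → E b A.car →
    ap E A.star (ap2 E A.mul a b) = ap2 E A.mul (ap E A.star b) (ap E A.star a)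
  star_smul : ∀ z w a, Conj E R z w → E a A.car →
    ap E A.star (ap2 E A.smul z a) = ap2 E A.smul w (ap E A.star a)
  norm_mul : ∀ a b, E a A.car → E b A.car →
    R.Le E (ap E A.norm (ap2 E A.mul a b)) (ap2 E R.mul (ap E A.norm a) (ap E A.norm b))
  norm_star_mul : ∀ a, E a A.car →
    ap E A.norm (ap2 E A.mul (ap E A.star a) a) = ap2 E R.mul (ap E A.norm a) (ap E A.norm a)

/-- `H` is a Hilbert space: a complex Banach space whose norm comes from an inner product (linear
in the second variable): `⟨x, x⟩ = ‖x‖²`. -/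
structure IsHilbert (H : Hilb M) : Prop where
  banach : IsBanach E R K H.toSpace
  ip_op : IsOp2 E H.ip H.car H.car K.car
  ip_add : ∀ x y z, E x H.car → E y H.car → E z H.car →
    ap2 E H.ip x (ap2 E H.add y z) = ap2 E K.add (ap2 E H.ip x y) (ap2 E H.ip x z)
  ip_smul : ∀ c x y, E c K.car → E x H.car → E y H.car →
    ap2 E H.ip x (ap2 E H.smul c y) = ap2 E K.mul c (ap2 E H.ip x y)
  ip_conj : ∀ x y, E x H.car → E y H.car → Conj E R (ap2 E H.ip x y) (ap2 E H.ip y x)
  ip_self : ∀ x, E x H.car →
    ap2 E H.ip x x = opair E (ap2 E R.mul (ap E H.norm x) (ap E H.norm x)) R.zero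

/-- `T` is a linear map from `X` to `Y`. -/
def IsLinear (T : M) (X Y : Space M) : Prop :=
  IsFunction E T X.car Y.car ∧
  (∀ x y, E x X.car → E y X.car → ap E T (ap2 E X.add x y) = ap2 E Y.add (ap E T x) (ap E T y)) ∧
  ∀ c x, E c K.car → E x X.car → ap E T (ap2 E X.smul c x) = ap2 E Y.smul c (ap E T x)

/-- `T ∈ B(X)`: a linear map `X → X` with `‖T x‖ ≤ C ‖x‖` for some real number `C`. -/
def IsOperator (X : Space M) (T : M) : Prop :=
  IsLinear E K T X X ∧ ∃ C, E C R.car ∧ ∀ x, E x X.car →
    R.Le E (ap E X.norm (ap E T x)) (ap2 E R.mul C (ap E X.norm x))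

/-- The image of the unit ball under `T` is totally bounded: for `T ∈ B(X)`, `T` is compact. -/
def IsCompactOp (X : Space M) (T : M) : Prop :=
  ∀ ε, R.Pos E ε → ∃ F, IsFinite E F ∧ Sub E F X.car ∧ ∀ x, E x X.car →
    R.Le E (ap E X.norm x) R.one → ∃ y, E y F ∧ Close E R X ε (ap E T x) y

/-- `π(a) x` -/
noncomputable def act (π a x : M) : M := ap E (ap E π a) x

variable (A : Alg M)

/-- `π` is a representation of `A` on `H`: a `*`-homomorphism `A → B(H)`. -/
structure IsRep (H : Hilb M) (π : M) : Prop where
  fn : ∃ B, IsFunction E π A.car B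
  op : ∀ a, E a A.car → IsOperator E R K H.toSpace (ap E π a)
  add : ∀ a b x, E a A.car → E b A.car → E x H.car →
    act E π (ap2 E A.add a b) x = ap2 E H.add (act E π a x) (act E π b x)
  smul : ∀ c a x, E c K.car → E a A.car → E x H.car →
    act E π (ap2 E A.smul c a) x = ap2 E H.smul c (act E π a x)
  mul : ∀ a b x, E a A.car → E b A.car → E x H.car →
    act E π (ap2 E A.mul a b) x = act E π a (act E π b x)
  star : ∀ a x y, E a A.car → E x H.car → E y H.car →
    ap2 E H.ip (act E π (ap E A.star a) x) y = ap2 E H.ip x (act E π a y)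

/-- `π ≠ 0`, and `0` and `H` are the only closed invariant subspaces. -/
def IsIrred (H : Hilb M) (π : M) : Prop :=
  (∃ a x, E a A.car ∧ E x H.car ∧ act E π a x ≠ H.zero) ∧
  ∀ V, IsSubspace E K H.toSpace V → IsClosedIn E R H.toSpace V →
    (∀ a x, E a A.car → E x V → E (act E π a x) V) → (∀ x, E x V → x = H.zero) ∨ Sub E H.car V

/-- `U π(a) = σ(a) U` for a unitary `U` (a linear isometry of `H` onto `L`). -/
def UnitEquiv (H L : Hilb M) (π σ : M) : Prop :=
  ∃ U, IsLinear E K U H.toSpace L.toSpace ∧ IsSurjection E U H.car L.car ∧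
    (∀ x, E x H.car → ap E L.norm (ap E U x) = ap E H.norm x) ∧
    ∀ a x, E a A.car → E x H.car → ap E U (act E π a x) = act E σ a (ap E U x)

/-- Property (N): `A ≠ 0` and any two irreducible representations are unitarily equivalent. -/
def PropN : Prop :=
  (∃ a, E a A.car ∧ a ≠ A.zero) ∧ ∀ (H L : Hilb M) (π σ : M), IsHilbert E R K H →
    IsHilbert E R K L → IsRep E R K A H π → IsRep E R K A L σ → IsIrred E R K A H π →
    IsIrred E R K A L σ → UnitEquiv E K A H L π σ

/-- `A` is isomorphic to `K(H)` for some Hilbert space `H`: some injective representation has as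
its range the set of all compact operators. -/
def IsCompacts : Prop :=
  ∃ (H : Hilb M) (π : M), IsHilbert E R K H ∧ IsRep E R K A H π ∧
    (∀ a b, E a A.car → E b A.car → ap E π a = ap E π b → a = b) ∧
    ∀ T, IsOperator E R K H.toSpace T →
      (IsCompactOp E R H.toSpace T ↔ ∃ a, E a A.car ∧ ap E π a = T)

/-- In `(M, E)`, some C*-algebra with property (N) is not isomorphic to any `K(H)`. -/
def Counter : Prop :=
  ∃ (R : Reals M) (K : Scalars M) (A : Alg M), IsReals E R ∧ IsComplexScalars E R K ∧
    IsCStar E R K A ∧ PropN E R K A ∧ ¬ IsCompacts E R K A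

/-- In `(M, E)`, every C*-algebra with property (N) is isomorphic to some `K(H)`. -/
def Naimark : Prop :=
  ∀ (R : Reals M) (K : Scalars M) (A : Alg M), IsReals E R → IsComplexScalars E R K →
    IsCStar E R K A → PropN E R K A → IsCompacts E R K A

end Vale.Agent.P070Z.S
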