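import Vale.Agent.P070ZS.FO
import Vale.Agent.P129BJ.Main

/-!
# From all models to a formal proof
-/

namespace Vale.Agent.P070ZS

open Vale.Agent.P323.Z Vale.Agent.P129Z.S Vale.Agent.P129B.Syn Vale.Agent.P070Z

/-- If `Counter` holds in all models of ZFC, then ZFC proves a sentence which expresses it, and the
negation of this sentence is not consistent with ZFC. -/
theorem prf_counter (H : ∀ (M : Type) (E : M → M → Prop), IsZFCModel E → Counter E) :
    ∃ φ : Fml 0, (∀ (M : Type) (E : M → M → Prop), φ.Sat E Fin.elim0 ↔ Counter E) ∧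
      Prf ZFC [] φ ∧ ¬ Con (ZFC ∪ {φ.neg}) := by
  obtain ⟨φ, h⟩ := exists_fml_counter.{0}
  refine ⟨φ, h, (prf_iff _ _).2 fun M E _ k => (h M E).2 (H M E ((isZFCModel_iff E).2 k)),
    fun k => ?_⟩
  obtain ⟨M, E, k1, k2⟩ := (con_union_iff _).1 k
  exact k2 _ rfl ((h M E).2 (H M E k1))

end Vale.Agent.P070ZS
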